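import Mathlib

/-!
Layer decomposition of the real line at geometric thresholds, averaged over `L` offsets.
It is an almost isometric map of the line into a finite `ℓ_p` sum whose coordinates are flat.
-/

namespace Vale.Agent.P249

open Finset

/-- Truncation of `a` to the interval `[-t, t]`. -/
noncomputable def clip (t a : ℝ) : ℝ := max (-t) (min a t)

/-- The layer of `a` between the thresholds `t` and `u`. -/
noncomputable def layer (t u a : ℝ) : ℝ := clip u a - clip t a

lemma clip_zero (a : ℝ) : clip 0 a = 0 := by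
  unfold clip; rw [neg_zero, max_eq_left (min_le_right a 0)]

lemma abs_clip_le {t : ℝ} (ht : 0 ≤ t) (a : ℝ) : |clip t a| ≤ t := by
  unfold clip
  rw [abs_le]
  refine ⟨le_max_left _ _, max_le (by linarith) (min_le_right _ _)⟩

lemma clip_eq_self {t a : ℝ} (h : |a| ≤ t) : clip t a = a := by
  unfold clip
  rw [abs_le] at h
  rw [min_eq_left h.2, max_eq_right h.1]

lemma clip_of_ge {t a : ℝ} (ht : 0 ≤ t) (h : t ≤ a) : clip t a = t := by
  unfold clip
  rw [min_eq_right h, max_eq_right (by linarith)]

lemma clip_of_le {t a : ℝ} (ht : 0 ≤ t) (h : a ≤ -t) : clip t a = -t := by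
  unfold clip
  rw [min_eq_left (by linarith), max_eq_left h]

lemma clip_mid {t a : ℝ} (h₁ : -t ≤ a) (h₂ : a ≤ t) : clip t a = a :=
  clip_eq_self (abs_le.2 ⟨h₁, h₂⟩)

lemma layer_eq {t u : ℝ} (ht : 0 ≤ t) (htu : t ≤ u) (a : ℝ) :
    layer t u a = min (u - t) (max (a - t) 0) + max (-(u - t)) (min (a + t) 0) := by
  unfold layer
  rcases le_total a (-u) with h | h
  · rw [clip_of_le (by linarith) h, clip_of_le ht (by linarith),
      max_eq_right (by linarith), min_eq_right (by linarith), min_eq_left (by linarith),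
      max_eq_left (by linarith)]
    ring
  rcases le_total a (-t) with h' | h'
  · rw [clip_mid h (by linarith), clip_of_le ht h',
      max_eq_right (by linarith), min_eq_right (by linarith), min_eq_left (by linarith),
      max_eq_right (by linarith)]
    ring
  rcases le_total a t with h'' | h''
  · rw [clip_mid h (by linarith), clip_mid h' h'',
      max_eq_right (by linarith), min_eq_right (by linarith),
      min_eq_right (by linarith : (0:ℝ) ≤ a + t), max_eq_right (by linarith)]
    ring
  rcases le_total a u with h''' | h'''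
  · rw [clip_mid h h''', clip_of_ge ht h'',
      max_eq_left (by linarith : (0:ℝ) ≤ a - t), min_eq_right (by linarith),
      min_eq_right (by linarith : (0:ℝ) ≤ a + t), max_eq_right (by linarith)]
    ring
  · rw [clip_of_ge (by linarith) h''', clip_of_ge ht h'',
      max_eq_left (by linarith : (0:ℝ) ≤ a - t), min_eq_left (by linarith),
      min_eq_right (by linarith : (0:ℝ) ≤ a + t), max_eq_right (by linarith)]
    ring

lemma layer_mono {t u : ℝ} (ht : 0 ≤ t) (htu : t ≤ u) {a b : ℝ} (hab : a ≤ b) :
    layer t u a ≤ layer t u b := by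
  rw [layer_eq ht htu, layer_eq ht htu]
  gcongr

lemma abs_layer_le {t u : ℝ} (ht : 0 ≤ t) (htu : t ≤ u) (a : ℝ) : |layer t u a| ≤ u := by
  rw [layer_eq ht htu]
  rcases le_total a 0 with h | h
  · rw [max_eq_right (by linarith : a - t ≤ 0), min_eq_right (by linarith), zero_add, abs_le]
    exact ⟨le_trans (by linarith) (le_max_left _ _),
      le_trans (max_le (by linarith) (min_le_right _ _)) (by linarith)⟩
  · rw [min_eq_right (by linarith : (0:ℝ) ≤ a + t), max_eq_right (by linarith : -(u - t) ≤ 0),
      add_zero, abs_le]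
    exact ⟨le_trans (by linarith) (le_min (by linarith) (le_max_right _ _)),
      le_trans (min_le_left _ _) (by linarith)⟩

lemma lt_abs_of_layer_ne_zero {t u a : ℝ} (htu : t ≤ u) (h : layer t u a ≠ 0) : t < |a| := by
  by_contra hn
  push Not at hn
  exact h (by unfold layer; rw [clip_eq_self hn, clip_eq_self (hn.trans htu), sub_self])

/-- A layer containing all relevant scales keeps almost all of a difference. -/
lemma layer_good {t u a b η : ℝ} (hη : 0 ≤ η) (ht : 0 ≤ t) (hua : |a| ≤ u) (hub : |b| ≤ u)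
    (h : t ≤ η * |a - b| ∨ t ≤ max |a| |b| - |a - b|) :
    (1 - 2 * η) * |a - b| ≤ |layer t u a - layer t u b| := by
  have key : |clip t a - clip t b| ≤ 2 * η * |a - b| := by
    rcases h with h | h
    · have h1 := abs_clip_le ht a
      have h2 := abs_clip_le ht b
      have h3 := abs_sub (clip t a) (clip t b)
      linarith
    · have h0 : clip t a = clip t b := by
        rcases le_total 0 a with ha | ha <;> rcases le_total 0 b with hb | hb
        · rw [abs_of_nonneg ha, abs_of_nonneg hb] at h
          have hta : t ≤ a ∧ t ≤ b := by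
            rcases le_total a b with hab | hab
            · rw [max_eq_right hab, abs_of_nonpos (by linarith)] at h
              exact ⟨by linarith, by linarith⟩
            · rw [max_eq_left hab, abs_of_nonneg (by linarith)] at h
              exact ⟨by linarith, by linarith⟩
          rw [clip_of_ge ht hta.1, clip_of_ge ht hta.2]
        · rw [abs_of_nonneg ha, abs_of_nonpos hb, abs_of_nonneg (by linarith : 0 ≤ a - b)] at h
          have ht0 : t = 0 := by
            rcases le_total a (-b) with hab | hab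
            · rw [max_eq_right hab] at h; linarith
            · rw [max_eq_left hab] at h; linarith
          subst ht0; rw [clip_zero, clip_zero]
        · rw [abs_of_nonpos ha, abs_of_nonneg hb, abs_of_nonpos (by linarith : a - b ≤ 0)] at h
          have ht0 : t = 0 := by
            rcases le_total (-a) b with hab | hab
            · rw [max_eq_right hab] at h; linarith
            · rw [max_eq_left hab] at h; linarith
          subst ht0; rw [clip_zero, clip_zero]
        · rw [abs_of_nonpos ha, abs_of_nonpos hb] at h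
          have hta : a ≤ -t ∧ b ≤ -t := by
            rcases le_total a b with hab | hab
            · rw [max_eq_left (by linarith), abs_of_nonpos (by linarith)] at h
              exact ⟨by linarith, by linarith⟩
            · rw [max_eq_right (by linarith), abs_of_nonneg (by linarith)] at h
              exact ⟨by linarith, by linarith⟩
          rw [clip_of_le ht hta.1, clip_of_le ht hta.2]
      rw [h0, sub_self, abs_zero]
      positivity
  unfold layer
  rw [clip_eq_self hua, clip_eq_self hub]
  have e : a - clip t a - (b - clip t b) = (a - b) - (clip t a - clip t b) := by ring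
  rw [e]
  have := abs_sub_abs_le_abs_sub (a - b) (clip t a - clip t b)
  linarith

/-- Thresholds for offset `j`. -/
noncomputable def bd (τ : ℝ) (L j : ℕ) : ℕ → ℝ
  | 0 => 0
  | l + 1 => τ * 2 ^ (j + L * l)

lemma bd_nonneg {τ : ℝ} (hτ : 0 ≤ τ) (L j : ℕ) : ∀ l, 0 ≤ bd τ L j l
  | 0 => le_rfl
  | l + 1 => by simp only [bd]; positivity

lemma bd_succ_succ (τ : ℝ) (L j l : ℕ) :
    bd τ L j (l + 2) = 2 ^ L * bd τ L j (l + 1) := by
  simp only [bd, Nat.mul_succ, pow_add]; ring

lemma bd_le_succ {τ : ℝ} (hτ : 0 ≤ τ) (L j : ℕ) : ∀ l, bd τ L j l ≤ bd τ L j (l + 1)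
  | 0 => bd_nonneg hτ L j 1
  | l + 1 => by
      rw [bd_succ_succ]
      exact le_mul_of_one_le_left (bd_nonneg hτ L j _) (one_le_pow₀ one_le_two)

lemma sum_rpow_le {ι : Type*} (s : Finset ι) {f : ι → ℝ} (hf : ∀ i ∈ s, 0 ≤ f i) {p : ℝ}
    (hp : 1 ≤ p) : ∑ i ∈ s, f i ^ p ≤ (∑ i ∈ s, f i) ^ p := by
  have hS : 0 ≤ ∑ i ∈ s, f i := sum_nonneg hf
  calc ∑ i ∈ s, f i ^ p = ∑ i ∈ s, f i * f i ^ (p - 1) := by
        refine sum_congr rfl fun i hi => ?_
        conv_lhs => rw [show p = 1 + (p - 1) by ring]
        rw [Real.rpow_add' (hf i hi) (by linarith), Real.rpow_one]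
    _ ≤ ∑ i ∈ s, f i * (∑ k ∈ s, f k) ^ (p - 1) := by
        refine sum_le_sum fun i hi => mul_le_mul_of_nonneg_left ?_ (hf i hi)
        exact Real.rpow_le_rpow (hf i hi) (single_le_sum hf hi) (by linarith)
    _ = (∑ i ∈ s, f i) ^ p := by
        rw [← sum_mul]
        conv_rhs => rw [show p = 1 + (p - 1) by ring]
        rw [Real.rpow_add' hS (by linarith), Real.rpow_one]

/-- The layers of one offset do not expand. -/
lemma layers_upper {τ : ℝ} (hτ : 0 ≤ τ) (L j R : ℕ) {p : ℝ} (hp : 1 ≤ p) {a b : ℝ}
    (ha : |a| ≤ τ * 2 ^ (L * R)) (hb : |b| ≤ τ * 2 ^ (L * R)) :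
    ∑ l ∈ range (R + 1), |layer (bd τ L j l) (bd τ L j (l + 1)) a
      - layer (bd τ L j l) (bd τ L j (l + 1)) b| ^ p ≤ |a - b| ^ p := by
  refine (sum_rpow_le _ (fun l _ => abs_nonneg _) hp).trans
    (Real.rpow_le_rpow (sum_nonneg fun l _ => abs_nonneg _) (le_of_eq ?_) (by linarith))
  have top : ∀ c : ℝ, |c| ≤ τ * 2 ^ (L * R) →
      ∑ l ∈ range (R + 1), layer (bd τ L j l) (bd τ L j (l + 1)) c = c := by
    intro c hc
    unfold layer
    rw [sum_range_sub (fun l => clip (bd τ L j l) c) (R + 1)]
    have h1 : |c| ≤ bd τ L j (R + 1) := by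
      refine hc.trans ?_
      simp only [bd]
      gcongr
      · exact one_le_two
      · omega
    rw [clip_eq_self h1, show bd τ L j 0 = 0 from rfl, clip_zero, sub_zero]
  rcases le_total a b with hab | hab
  · rw [sum_congr rfl fun l _ => abs_of_nonpos (sub_nonpos.2
      (layer_mono (bd_nonneg hτ L j l) (bd_le_succ hτ L j l) hab))]
    rw [sum_neg_distrib, sum_sub_distrib, top a ha, top b hb, abs_of_nonpos (by linarith)]
  · rw [sum_congr rfl fun l _ => abs_of_nonneg (sub_nonneg.2
      (layer_mono (bd_nonneg hτ L j l) (bd_le_succ hτ L j l) hab))]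
    rw [sum_sub_distrib, top a ha, top b hb, abs_of_nonneg (by linarith)]

/-- On average over the offsets the layers lose almost nothing. -/
lemma layers_lower {τ : ℝ} (hτ : 0 < τ) (L R k : ℕ) {p : ℝ} (hp : 1 ≤ p)
    (hk : (2:ℝ) / 2 ^ k ≤ 1) {a b : ℝ}
    (ha : |a| ≤ τ * 2 ^ (L * R)) (hb : |b| ≤ τ * 2 ^ (L * R)) :
    ((L : ℝ) - (k + 1)) * ((1 - 2 / 2 ^ k) * |a - b|) ^ p ≤
      ∑ j ∈ range L, ∑ l ∈ range (R + 1), |layer (bd τ L j l) (bd τ L j (l + 1)) a
        - layer (bd τ L j l) (bd τ L j (l + 1)) b| ^ p := by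
  classical
  have hk0 : 0 ≤ 1 - (2:ℝ) / 2 ^ k := by linarith
  by_cases hab : a = b
  · subst hab
    simp [Real.zero_rpow (by linarith : p ≠ 0)]
  have hδ : 0 < |a - b| := abs_pos.2 (sub_ne_zero.2 hab)
  set lo := max (|a - b| / 2 ^ k) (max |a| |b| - |a - b|) with hlo
  set A := max |a| |b| with hA
  have hlo0 : 0 < lo := lt_of_lt_of_le (by positivity) (le_max_left _ _)
  have hAlo : A ≤ 2 ^ (k + 1) * lo := by
    rcases le_total A (2 * |a - b|) with h | h
    · calc A ≤ 2 * |a - b| := h
        _ = 2 ^ (k + 1) * (|a - b| / 2 ^ k) := by rw [pow_succ]; field_simp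
        _ ≤ _ := by gcongr; exact le_max_left _ _
    · calc A ≤ 2 * (A - |a - b|) := by linarith
        _ ≤ 2 ^ (k + 1) * lo := by
            gcongr
            · linarith [le_max_right (|a - b| / 2 ^ k) (A - |a - b|), hlo0]
            · exact le_self_pow₀ one_le_two (by omega)
            · exact le_max_right _ _
  set Bad := (range L).filter
    (fun j => ∃ l ≤ R, lo < τ * 2 ^ (j + L * l) ∧ τ * 2 ^ (j + L * l) < A) with hBad
  have hcard : Bad.card ≤ k + 1 := by
    rcases Bad.eq_empty_or_nonempty with h | h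
    · simp [h]
    have hex : ∀ j ∈ Bad, ∃ e : ℕ, e % L = j ∧ lo < τ * 2 ^ e ∧ τ * 2 ^ e < A := by
      intro j hj
      rw [hBad, mem_filter, mem_range] at hj
      obtain ⟨l, -, h1, h2⟩ := hj.2
      exact ⟨j + L * l, by rw [Nat.add_mul_mod_self_left, Nat.mod_eq_of_lt hj.1], h1, h2⟩
    choose! e he using hex
    obtain ⟨j₀, hj₀, hmin⟩ := Bad.exists_min_image e h
    calc Bad.card ≤ (Finset.Ico (e j₀) (e j₀ + (k + 1))).card := by
          refine card_le_card_of_injOn e (fun j hj => ?_) (fun i hi j hj hij => ?_)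
          · have hj' : j ∈ Bad := hj
            rw [Finset.mem_coe, Finset.mem_Ico]
            refine ⟨hmin j hj', ?_⟩
            have h1 := (he j hj').2.2
            have h2 := (he j₀ hj₀).2.1
            have h3 : τ * (2:ℝ) ^ e j < τ * 2 ^ (e j₀ + (k + 1)) := by
              calc τ * 2 ^ e j < A := h1
                _ ≤ 2 ^ (k + 1) * lo := hAlo
                _ ≤ 2 ^ (k + 1) * (τ * 2 ^ e j₀) := by gcongr
                _ = _ := by ring
            exact (pow_lt_pow_iff_right₀ one_lt_two).1 (lt_of_mul_lt_mul_left h3 hτ.le)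
          · rw [← (he i hi).1, ← (he j hj).1, hij]
      _ = k + 1 := by simp
  have hgood : ∀ j ∈ range L \ Bad, ((1 - 2 / 2 ^ k) * |a - b|) ^ p ≤
      ∑ l ∈ range (R + 1), |layer (bd τ L j l) (bd τ L j (l + 1)) a
        - layer (bd τ L j l) (bd τ L j (l + 1)) b| ^ p := by
    intro j hj
    rw [mem_sdiff, hBad, mem_filter] at hj
    set P : ℕ → Prop := fun l => bd τ L j l ≤ lo
    set l₀ := Nat.findGreatest P R
    have hl : bd τ L j l₀ ≤ lo :=
      Nat.findGreatest_spec (P := P) (Nat.zero_le R) hlo0.le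
    have hl₀ : l₀ ≤ R := Nat.findGreatest_le R
    have hu : A ≤ bd τ L j (l₀ + 1) := by
      rcases hl₀.lt_or_eq with hlt | heq
      · have hnot : ¬ bd τ L j (l₀ + 1) ≤ lo :=
          Nat.findGreatest_is_greatest (P := P) (Nat.lt_succ_self l₀) hlt
        by_contra hc
        exact hj.2 ⟨hj.1, l₀, hl₀, not_le.1 hnot, not_le.1 hc⟩
      · rw [heq]
        refine (max_le ha hb).trans ?_
        simp only [bd]
        gcongr
        · exact one_le_two
        · omega
    have hmain := layer_good (η := 1 / 2 ^ k) (by positivity) (bd_nonneg hτ.le L j l₀)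
      ((le_max_left |a| |b|).trans hu) ((le_max_right |a| |b|).trans hu)
      ((le_max_iff.1 hl).imp (fun h => by rwa [one_div_mul_eq_div]) id)
    rw [mul_one_div] at hmain
    refine le_trans ?_ (single_le_sum (fun l _ => Real.rpow_nonneg (abs_nonneg _) p)
      (mem_range.2 (Nat.lt_succ_of_le hl₀)))
    exact Real.rpow_le_rpow (mul_nonneg hk0 hδ.le) hmain (by linarith)
  calc ((L : ℝ) - (k + 1)) * ((1 - 2 / 2 ^ k) * |a - b|) ^ p
      ≤ ((range L \ Bad).card : ℝ) * ((1 - 2 / 2 ^ k) * |a - b|) ^ p := by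
        refine mul_le_mul_of_nonneg_right ?_ (Real.rpow_nonneg (mul_nonneg hk0 hδ.le) p)
        have h1 : (range L).card - Bad.card ≤ (range L \ Bad).card := le_card_sdiff _ _
        rw [card_range] at h1
        have h2 : L ≤ (range L \ Bad).card + (k + 1) := by omega
        have h3 : (L : ℝ) ≤ (range L \ Bad).card + ((k : ℝ) + 1) := by exact_mod_cast h2
        linarith
    _ = ∑ _j ∈ range L \ Bad, ((1 - 2 / 2 ^ k) * |a - b|) ^ p := by
        rw [sum_const, nsmul_eq_mul]
    _ ≤ _ := (sum_le_sum hgood).trans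
        (sum_le_sum_of_subset_of_nonneg sdiff_subset
          fun j _ _ => sum_nonneg fun l _ => Real.rpow_nonneg (abs_nonneg _) p)

/-- The total weight of the nonzero layers of one number is controlled by its `p`-th power. -/
lemma layers_weight {τ : ℝ} (hτ : 0 ≤ τ) (L j : ℕ) (hL : 1 ≤ L) (hj : j ≤ L) {p : ℝ}
    (hp : 1 ≤ p) (a : ℝ) (R : ℕ) :
    ∑ l ∈ range (R + 1), (if layer (bd τ L j l) (bd τ L j (l + 1)) a = 0 then 0
        else bd τ L j (l + 1) ^ p)
      ≤ (τ * 2 ^ L) ^ p + 2 * ((2:ℝ) ^ L) ^ p * |a| ^ p := by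
  set v : ℕ → ℝ := fun l => bd τ L j l ^ p with hv
  have hv0 : v 0 = 0 := by simp [hv, bd, Real.zero_rpow (by linarith : p ≠ 0)]
  have hvnn : ∀ l, 0 ≤ v l := fun l => Real.rpow_nonneg (bd_nonneg hτ L j l) p
  have hdouble : ∀ l, 2 * v l ≤ v (l + 1) := by
    intro l
    rcases l with _ | l
    · rw [hv0, mul_zero]; exact hvnn 1
    simp only [hv]
    rw [bd_succ_succ, Real.mul_rpow (by positivity) (bd_nonneg hτ L j _)]
    gcongr
    · exact Real.rpow_nonneg (bd_nonneg hτ L j _) p
    calc (2:ℝ) = (2:ℝ) ^ (1:ℝ) := (Real.rpow_one 2).symm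
      _ ≤ ((2:ℝ) ^ L) ^ (1:ℝ) := Real.rpow_le_rpow zero_le_two
          (le_self_pow₀ one_le_two (by omega)) zero_le_one
      _ ≤ ((2:ℝ) ^ L) ^ p := Real.rpow_le_rpow_of_exponent_le (one_le_pow₀ one_le_two) hp
  have hgeo : ∀ m, ∑ l ∈ range m, v l ≤ v m := by
    intro m
    induction m with
    | zero => simp [hv0]
    | succ m ih => rw [sum_range_succ]; linarith [hdouble m]
  have hsmall : ∀ m, ∑ l ∈ range m, (if v l < |a| ^ p then v l else 0) ≤ 2 * |a| ^ p := by
    intro m
    induction m with
    | zero => simp; positivity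
    | succ m ih =>
      by_cases h : v m < |a| ^ p
      · calc _ ≤ ∑ l ∈ range (m + 1), v l :=
              sum_le_sum fun l _ => by split_ifs <;> linarith [hvnn l]
          _ ≤ _ := by rw [sum_range_succ]; linarith [hgeo m]
      · rw [sum_range_succ, if_neg h, add_zero]; exact ih
  rw [sum_range_succ']
  rw [add_comm]
  refine add_le_add ?_ ?_
  · split_ifs
    · positivity
    · refine Real.rpow_le_rpow (bd_nonneg hτ L j _) ?_ (by linarith)
      simp only [bd, Nat.mul_zero, add_zero]
      gcongr
      exact one_le_two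
  · calc _ ≤ ∑ l ∈ range R, ((2:ℝ) ^ L) ^ p *
          (if v (l + 1) < |a| ^ p then v (l + 1) else 0) := by
          refine sum_le_sum fun l _ => ?_
          by_cases h : layer (bd τ L j (l + 1)) (bd τ L j (l + 1 + 1)) a = 0
          · rw [if_pos h]
            have := hvnn (l + 1)
            split_ifs <;> positivity
          · rw [if_neg h, if_pos]
            · simp only [hv]
              rw [bd_succ_succ, Real.mul_rpow (by positivity) (bd_nonneg hτ L j _)]
            · exact Real.rpow_lt_rpow (bd_nonneg hτ L j _)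
                (lt_abs_of_layer_ne_zero (bd_le_succ hτ L j _) h) (by linarith)
      _ ≤ ((2:ℝ) ^ L) ^ p * ∑ l ∈ range (R + 1), (if v l < |a| ^ p then v l else 0) := by
          rw [← mul_sum, sum_range_succ']
          refine mul_le_mul_of_nonneg_left (le_add_of_nonneg_right ?_) (by positivity)
          have := hvnn 0
          split_ifs <;> linarith
      _ ≤ _ := by
          rw [mul_comm (2:ℝ), mul_assoc]
          exact mul_le_mul_of_nonneg_left (hsmall _) (by positivity)

end Vale.Agent.P249
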