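import Mathlib

/-!
Random clamped bucket sampling: flat sparse weighted vectors are mapped with almost no
distortion to `O(log n)` coordinates (for bounded weight ratio).
-/

namespace Vale.Agent.P249

open Finset

/-- Truncation to `[-1, 1]`. -/
noncomputable def clamp (a : ℝ) : ℝ := max (-1) (min a 1)

lemma abs_clamp_le (a : ℝ) : |clamp a| ≤ 1 := by
  unfold clamp
  rw [abs_le]
  exact ⟨le_max_left _ _, max_le (by norm_num) (min_le_right _ _)⟩

lemma clamp_of_abs_le {a : ℝ} (h : |a| ≤ 1) : clamp a = a := by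
  unfold clamp
  rw [abs_le] at h
  rw [min_eq_left h.2, max_eq_right h.1]

section Product

variable {Q : Type*} [Fintype Q]

/-- Product weight. -/
def pw {t : ℕ} (P : Q → ℝ) (ω : Fin t → Q) : ℝ := ∏ k, P (ω k)

omit [Fintype Q] in
lemma pw_nonneg {t : ℕ} {P : Q → ℝ} (hP : ∀ q, 0 ≤ P q) (ω : Fin t → Q) : 0 ≤ pw P ω :=
  prod_nonneg fun k _ => hP (ω k)

lemma sum_pw_prod {t : ℕ} (P : Q → ℝ) (g : Fin t → Q → ℝ) :
    ∑ ω : Fin t → Q, pw P ω * ∏ k, g k (ω k) = ∏ k, ∑ q, P q * g k q := by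
  rw [Finset.prod_univ_sum, Fintype.piFinset_univ]
  refine sum_congr rfl fun ω _ => ?_
  rw [pw, ← prod_mul_distrib]

lemma sum_pw {t : ℕ} {P : Q → ℝ} (hP : ∑ q, P q = 1) : ∑ ω : Fin t → Q, pw P ω = 1 := by
  have := sum_pw_prod (t := t) P (fun _ _ => 1)
  simpa [hP] using this

lemma sum_pw_single {t : ℕ} {P : Q → ℝ} (hP : ∑ q, P q = 1) (F : Q → ℝ) (k : Fin t) :
    ∑ ω : Fin t → Q, pw P ω * F (ω k) = ∑ q, P q * F q := by
  have := sum_pw_prod P (fun i q => if i = k then F q else 1)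
  simp only [Finset.prod_ite_eq', mem_univ, if_true] at this
  rw [this, prod_eq_single k]
  · simp
  · intro i _ hi; simp [hi, hP]
  · simp

lemma sum_pw_pair {t : ℕ} {P : Q → ℝ} (hP : ∑ q, P q = 1) (F : Q → ℝ) {k l : Fin t}
    (hkl : k ≠ l) :
    ∑ ω : Fin t → Q, pw P ω * (F (ω k) * F (ω l)) = (∑ q, P q * F q) ^ 2 := by
  classical
  have e1 : ∀ ω : Fin t → Q,
      ∏ i, (if i = k ∨ i = l then F (ω i) else 1) = F (ω k) * F (ω l) := by
    intro ω
    rw [← prod_filter]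
    have : (univ.filter fun i => i = k ∨ i = l) = {k, l} := by ext; simp
    rw [this, prod_pair hkl]
  have := sum_pw_prod P (fun i q => if i = k ∨ i = l then F q else 1)
  simp only [e1] at this
  rw [this]
  rw [prod_eq_mul k l hkl]
  · simp [sq]
  · intro i _ hi; simp [hi.1, hi.2, hP]
  · simp
  · simp

end Product

/-- A bucket containing the atoms `ω k` differs from the sum of its atoms only when two of
them are hit. -/
lemma bucket_error {t : ℕ} {p : ℝ} (hp : 1 ≤ p) (a b : Fin t → ℝ) (ha : ∀ k, |a k| ≤ 1)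
    (hb : ∀ k, |b k| ≤ 1) :
    |(|clamp (∑ k, a k) - clamp (∑ k, b k)| ^ p) - ∑ k, |a k - b k| ^ p|
      ≤ 2 ^ p * ∑ k, ∑ l, if k ≠ l then
          ((if a k = 0 ∧ b k = 0 then (0:ℝ) else 1) * (if a l = 0 ∧ b l = 0 then 0 else 1))
        else 0 := by
  classical
  set h : Fin t → ℝ := fun k => if a k = 0 ∧ b k = 0 then 0 else 1 with hh
  have h0 : ∀ k, 0 ≤ h k := fun k => by simp only [hh]; split_ifs <;> norm_num
  set Hs := univ.filter (fun k => ¬(a k = 0 ∧ b k = 0)) with hHs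
  have hout : ∀ k, k ∉ Hs → a k = 0 ∧ b k = 0 := by
    intro k hk; simpa [hHs] using hk
  have eA : ∑ k, a k = ∑ k ∈ Hs, a k :=
    (sum_subset (subset_univ _) fun k _ hk => (hout k hk).1).symm
  have eB : ∑ k, b k = ∑ k ∈ Hs, b k :=
    (sum_subset (subset_univ _) fun k _ hk => (hout k hk).2).symm
  have eS : ∑ k, |a k - b k| ^ p = ∑ k ∈ Hs, |a k - b k| ^ p := by
    refine (sum_subset (subset_univ _) fun k _ hk => ?_).symm
    simp [(hout k hk).1, (hout k hk).2, Real.zero_rpow (by linarith : p ≠ 0)]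
  have hR0 : 0 ≤ ∑ k, ∑ l, if k ≠ l then h k * h l else 0 :=
    sum_nonneg fun k _ => sum_nonneg fun l _ => by
      split_ifs <;> [exact mul_nonneg (h0 k) (h0 l); exact le_rfl]
  have h2p : (0:ℝ) ≤ 2 ^ p := Real.rpow_nonneg zero_le_two p
  rw [eA, eB, eS]
  show _ ≤ 2 ^ p * ∑ k, ∑ l, if k ≠ l then h k * h l else 0
  rcases Nat.lt_or_ge Hs.card 2 with hc | hc
  · have : (|clamp (∑ k ∈ Hs, a k) - clamp (∑ k ∈ Hs, b k)| ^ p)
        - ∑ k ∈ Hs, |a k - b k| ^ p = 0 := by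
      rcases Nat.lt_or_ge Hs.card 1 with h1 | h1
      · have : Hs = ∅ := card_eq_zero.1 (by omega)
        simp [this, Real.zero_rpow (by linarith : p ≠ 0)]
      · obtain ⟨k, hk⟩ := card_eq_one.1 (by omega : Hs.card = 1)
        simp [hk, clamp_of_abs_le (ha k), clamp_of_abs_le (hb k)]
    rw [this, abs_zero]
    exact mul_nonneg h2p hR0
  · have hY : |clamp (∑ k ∈ Hs, a k) - clamp (∑ k ∈ Hs, b k)| ^ p ≤ 2 ^ p := by
      refine Real.rpow_le_rpow (abs_nonneg _) ?_ (by linarith)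
      refine (abs_sub _ _).trans ?_
      linarith [abs_clamp_le (∑ k ∈ Hs, a k), abs_clamp_le (∑ k ∈ Hs, b k)]
    have hS : ∑ k ∈ Hs, |a k - b k| ^ p ≤ 2 ^ p * Hs.card := by
      calc _ ≤ ∑ _k ∈ Hs, (2:ℝ) ^ p := sum_le_sum fun k _ =>
            Real.rpow_le_rpow (abs_nonneg _)
              ((abs_sub _ _).trans (by linarith [ha k, hb k])) (by linarith)
        _ = _ := by rw [sum_const, nsmul_eq_mul, mul_comm]
    have hpair : (Hs.card : ℝ) ≤ ∑ k, ∑ l, if k ≠ l then h k * h l else 0 := by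
      calc (Hs.card : ℝ) = ∑ _k ∈ Hs, (1:ℝ) := by simp
        _ ≤ ∑ k ∈ Hs, ∑ l, if k ≠ l then h k * h l else 0 := by
          refine sum_le_sum fun k hk => ?_
          obtain ⟨l, hl, hne⟩ := exists_mem_ne (show 1 < Hs.card by omega) k
          refine le_trans ?_ (single_le_sum (fun i _ => ?_) (mem_univ l))
          · rw [if_pos hne.symm]
            simp only [hHs, mem_filter, mem_univ, true_and] at hk hl
            simp [hh, hk, hl]
          · split_ifs <;> [exact mul_nonneg (h0 k) (h0 i); exact le_rfl]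
        _ ≤ _ := sum_le_sum_of_subset_of_nonneg (subset_univ _) fun k _ _ =>
            sum_nonneg fun l _ => by
              split_ifs <;> [exact mul_nonneg (h0 k) (h0 l); exact le_rfl]
    have hc' : (1:ℝ) ≤ Hs.card := by exact_mod_cast (show 1 ≤ Hs.card by omega)
    have hYn : 0 ≤ |clamp (∑ k ∈ Hs, a k) - clamp (∑ k ∈ Hs, b k)| ^ p :=
      Real.rpow_nonneg (abs_nonneg _) p
    have hSn : 0 ≤ ∑ k ∈ Hs, |a k - b k| ^ p :=
      sum_nonneg fun k _ => Real.rpow_nonneg (abs_nonneg _) p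
    have := mul_le_mul_of_nonneg_left hpair h2p
    have := mul_le_mul_of_nonneg_left hc' h2p
    rw [abs_le]
    constructor <;> linarith

lemma exp_chord {y l : ℝ} (h0 : 0 ≤ y) (h1 : y ≤ 1) :
    Real.exp (l * y) ≤ 1 + y * (Real.exp l - 1) := by
  have := convexOn_exp.2 (Set.mem_univ l) (Set.mem_univ 0) h0
    (by linarith : 0 ≤ 1 - y) (by ring)
  simp only [smul_eq_mul, mul_zero, add_zero, Real.exp_zero, mul_one] at this
  rw [mul_comm]
  linarith

lemma exp_le_quad {l : ℝ} (h : |l| ≤ 1) : Real.exp l ≤ 1 + l + l ^ 2 := by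
  have := Real.abs_exp_sub_one_sub_id_le h
  rw [abs_le] at this
  linarith [this.2]

/-- Chernoff bound for `l * (sum of d samples)`. -/
lemma chernoff {Ω : Type*} [Fintype Ω] {P Y : Ω → ℝ} (hP : ∀ ω, 0 ≤ P ω) (hP1 : ∑ ω, P ω = 1)
    (hY0 : ∀ ω, 0 ≤ Y ω) (hY1 : ∀ ω, Y ω ≤ 1) (d : ℕ) {l μ : ℝ} (hl : |l| ≤ 1)
    (hμ : μ = ∑ ω, P ω * Y ω) (c : ℝ) :
    ∑ F : Fin d → Ω, (if c ≤ l * ∑ b, Y (F b) then pw P F else 0)
      ≤ Real.exp (d * μ * (l + l ^ 2) - c) := by
  have hμ0 : 0 ≤ μ := hμ ▸ sum_nonneg fun ω _ => mul_nonneg (hP ω) (hY0 ω)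
  have h1 : ∑ ω, P ω * Real.exp (l * Y ω) ≤ Real.exp (μ * (l + l ^ 2)) := by
    calc ∑ ω, P ω * Real.exp (l * Y ω) ≤ ∑ ω, P ω * (1 + Y ω * (Real.exp l - 1)) :=
          sum_le_sum fun ω _ => mul_le_mul_of_nonneg_left (exp_chord (hY0 ω) (hY1 ω)) (hP ω)
      _ = 1 + μ * (Real.exp l - 1) := by
          simp only [mul_add, mul_one, sum_add_distrib, hP1, hμ, sum_mul, mul_assoc]
      _ ≤ Real.exp (μ * (Real.exp l - 1)) := by
          linarith [Real.add_one_le_exp (μ * (Real.exp l - 1))]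
      _ ≤ _ := Real.exp_le_exp.2
          (mul_le_mul_of_nonneg_left (by linarith [exp_le_quad hl]) hμ0)
  calc _ ≤ ∑ F : Fin d → Ω, Real.exp (-c) * (pw P F * ∏ b, Real.exp (l * Y (F b))) := by
        refine sum_le_sum fun F _ => ?_
        have hn := pw_nonneg hP F
        rw [← Real.exp_sum, ← mul_sum]
        split_ifs with h
        · rw [mul_left_comm, ← Real.exp_add]
          exact le_mul_of_one_le_right hn (Real.one_le_exp (by linarith))
        · positivity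
    _ = Real.exp (-c) * (∑ ω, P ω * Real.exp (l * Y ω)) ^ d := by
        rw [← mul_sum, sum_pw_prod P (fun _ ω => Real.exp (l * Y ω))]
        simp
    _ ≤ Real.exp (-c) * Real.exp (μ * (l + l ^ 2)) ^ d :=
        mul_le_mul_of_nonneg_left
          (pow_le_pow_left₀ (sum_nonneg fun ω _ => mul_nonneg (hP ω) (Real.exp_pos _).le) h1 d)
          (Real.exp_pos _).le
    _ = _ := by
        rw [← Real.exp_nat_mul, ← Real.exp_add]
        congr 1; ring

/-- The expected contribution of a bucket of `t` independent atoms. -/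
lemma bucket_mean {Q : Type*} [Fintype Q] {t : ℕ} {p : ℝ} (hp : 1 ≤ p) {P : Q → ℝ}
    (hP : ∀ q, 0 ≤ P q) (hP1 : ∑ q, P q = 1) (a b : Q → ℝ) (ha : ∀ q, |a q| ≤ 1)
    (hb : ∀ q, |b q| ≤ 1) {h : ℝ}
    (hh : ∑ q, P q * (if a q = 0 ∧ b q = 0 then (0:ℝ) else 1) ≤ h) :
    |∑ ω : Fin t → Q, pw P ω * |clamp (∑ k, a (ω k)) - clamp (∑ k, b (ω k))| ^ p
      - t * ∑ q, P q * |a q - b q| ^ p| ≤ 2 ^ p * ((t:ℝ) ^ 2 * h ^ 2) := by
  classical
  set G : Q → ℝ := fun q => if a q = 0 ∧ b q = 0 then 0 else 1 with hG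
  have hG0 : ∀ q, 0 ≤ G q := fun q => by simp only [hG]; split_ifs <;> norm_num
  have hh0 : 0 ≤ ∑ q, P q * G q := sum_nonneg fun q _ => mul_nonneg (hP q) (hG0 q)
  have eS : ∑ ω : Fin t → Q, pw P ω * ∑ k, |a (ω k) - b (ω k)| ^ p
      = t * ∑ q, P q * |a q - b q| ^ p := by
    simp only [mul_sum]
    rw [sum_comm]
    simp only [sum_pw_single hP1 (fun q => |a q - b q| ^ p)]
    rw [sum_const, card_univ, Fintype.card_fin, nsmul_eq_mul, mul_sum]
  have eR : ∑ ω : Fin t → Q, pw P ω *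
      (∑ k, ∑ l, if k ≠ l then G (ω k) * G (ω l) else 0) ≤ (t:ℝ) ^ 2 * h ^ 2 := by
    simp only [mul_sum]
    rw [sum_comm]
    calc ∑ k : Fin t, ∑ ω, ∑ l : Fin t, pw P ω * (if k ≠ l then G (ω k) * G (ω l) else 0)
        ≤ ∑ _k : Fin t, ∑ _l : Fin t, h ^ 2 := by
          refine sum_le_sum fun k _ => ?_
          rw [sum_comm]
          refine sum_le_sum fun l _ => ?_
          by_cases hkl : k = l
          · simp [hkl]; positivity
          · simp only [ne_eq, hkl, not_false_eq_true, if_true]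
            rw [sum_pw_pair hP1 G hkl]
            exact pow_le_pow_left₀ hh0 hh 2
      _ = _ := by simp [sq, mul_assoc]
  rw [← eS, ← sum_sub_distrib]
  refine (abs_sum_le_sum_abs _ _).trans ?_
  refine le_trans ?_ (mul_le_mul_of_nonneg_left eR (Real.rpow_nonneg zero_le_two p))
  rw [mul_sum]
  refine sum_le_sum fun ω _ => ?_
  rw [← mul_sub, abs_mul, abs_of_nonneg (pw_nonneg hP ω), mul_left_comm]
  exact mul_le_mul_of_nonneg_left
    (bucket_error hp _ _ (fun k => ha (ω k)) (fun k => hb (ω k))) (pw_nonneg hP ω)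

/-- Union bound: some sample has all the sums within `(1 ± ε)` of their means. -/
lemma exists_good {Ω ι : Type*} [Fintype Ω] {P : Ω → ℝ} (hP : ∀ ω, 0 ≤ P ω)
    (hP1 : ∑ ω, P ω = 1) (pairs : Finset ι) (Y : ι → Ω → ℝ) (hY0 : ∀ z ω, 0 ≤ Y z ω)
    (hY1 : ∀ z ω, Y z ω ≤ 1) {n d : ℕ} (hn : 2 ≤ n) (hc : pairs.card ≤ n * n) {ε : ℝ}
    (hε : 0 < ε) (hε2 : ε ≤ 1)
    (hμ : ∀ z ∈ pairs, 13 / 4 * Real.log n ≤ d * (∑ ω, P ω * Y z ω) * (ε ^ 2 / 4)) :
    ∃ F : Fin d → Ω, ∀ z ∈ pairs,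
      (1 - ε) * (d * ∑ ω, P ω * Y z ω) ≤ ∑ b, Y z (F b) ∧
      ∑ b, Y z (F b) ≤ (1 + ε) * (d * ∑ ω, P ω * Y z ω) := by
  classical
  set μ : ι → ℝ := fun z => ∑ ω, P ω * Y z ω with hμdef
  set Bad : ι → (Fin d → Ω) → Prop := fun z F =>
    (1 + ε) * (d * μ z) ≤ ∑ b, Y z (F b) ∨ ∑ b, Y z (F b) ≤ (1 - ε) * (d * μ z) with hBad
  have hlogn : 0 < Real.log n := Real.log_pos (by exact_mod_cast (show 1 < n by omega))
  have hbad : ∀ z ∈ pairs, ∑ F : Fin d → Ω, (if Bad z F then pw P F else 0)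
        ≤ 2 * Real.exp (-(13 / 4 * Real.log n)) := by
    intro z hz
    have up := chernoff (l := ε / 2) (μ := μ z) hP hP1 (hY0 z) (hY1 z)
      d (by rw [abs_of_pos (by positivity)]; linarith) rfl
      (ε / 2 * ((1 + ε) * (d * μ z)))
    have dn := chernoff (l := -(ε / 2)) (μ := μ z) hP hP1 (hY0 z) (hY1 z)
      d (by rw [abs_neg, abs_of_pos (by positivity)]; linarith) rfl
      (-(ε / 2) * ((1 - ε) * (d * μ z)))
    have hz' : 13 / 4 * Real.log n ≤ d * μ z * (ε ^ 2 / 4) := hμ z hz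
    have h1 : d * μ z * (ε / 2 + (ε / 2) ^ 2) - ε / 2 * ((1 + ε) * (d * μ z))
        ≤ -(13 / 4 * Real.log n) := by linarith
    have h2 : d * μ z * (-(ε / 2) + (-(ε / 2)) ^ 2)
        - -(ε / 2) * ((1 - ε) * (d * μ z)) ≤ -(13 / 4 * Real.log n) := by linarith
    refine le_trans ?_ (le_of_le_of_eq (add_le_add (up.trans (Real.exp_le_exp.2 h1))
      (dn.trans (Real.exp_le_exp.2 h2))) (two_mul _).symm)
    rw [← sum_add_distrib]
    refine sum_le_sum fun F _ => ?_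
    have hn' := pw_nonneg hP F
    by_cases hb : Bad z F
    · rw [if_pos hb]
      rcases hb with hb | hb
      · rw [if_pos (mul_le_mul_of_nonneg_left hb (by positivity : 0 ≤ ε / 2))]
        exact le_add_of_nonneg_right (by split_ifs <;> [exact hn'; exact le_rfl])
      · rw [if_pos (mul_le_mul_of_nonpos_left hb (by linarith : -(ε / 2) ≤ 0))]
        exact le_add_of_nonneg_left (by split_ifs <;> [exact hn'; exact le_rfl])
    · rw [if_neg hb]
      refine add_nonneg ?_ ?_ <;> split_ifs <;> first | exact hn' | exact le_rfl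
  by_contra hcon
  push Not at hcon
  have h1 : (1:ℝ) ≤ ∑ z ∈ pairs, ∑ F : Fin d → Ω, (if Bad z F then pw P F else 0) := by
    refine le_of_eq_of_le (sum_pw (t := d) hP1).symm ?_
    rw [sum_comm]
    refine sum_le_sum fun F _ => ?_
    obtain ⟨z, hz, hb⟩ := hcon F
    have hb' : Bad z F := by
      by_cases h : (1 - ε) * (d * μ z) ≤ ∑ b, Y z (F b)
      · exact Or.inl (hb h).le
      · exact Or.inr (not_le.1 h).le
    refine le_trans (le_of_eq ?_) (single_le_sum (fun y _ => ?_) hz)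
    · rw [if_pos hb']
    · split_ifs <;> [exact pw_nonneg hP F; exact le_rfl]
  have h2 := h1.trans (sum_le_sum hbad)
  rw [sum_const, nsmul_eq_mul] at h2
  have h3 : ((pairs.card : ℕ) : ℝ) ≤ (n:ℝ) ^ 2 := by
    calc _ ≤ ((n * n : ℕ) : ℝ) := by exact_mod_cast hc
      _ = _ := by push_cast; ring
  have hnpos : (0:ℝ) < n := by positivity
  have h4 : Real.exp (-(13 / 4 * Real.log n)) < 1 / (n:ℝ) ^ 3 := by
    rw [one_div, ← Real.exp_log (inv_pos.2 (pow_pos hnpos 3)), Real.exp_lt_exp, Real.log_inv,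
      Real.log_pow]
    push_cast; linarith
  have h5 : (n:ℝ) ^ 2 * (2 * (1 / (n:ℝ) ^ 3)) ≤ 1 := by
    field_simp
    exact_mod_cast hn
  have : (pairs.card : ℝ) * (2 * Real.exp (-(13 / 4 * Real.log n)))
      < (n:ℝ) ^ 2 * (2 * (1 / (n:ℝ) ^ 3)) :=
    lt_of_le_of_lt (mul_le_mul_of_nonneg_right h3 (by positivity))
      (mul_lt_mul_of_pos_left (by linarith) (by positivity))
  linarith

/-- Random clamped bucket sampling of weighted flat vectors. -/
theorem sampling {Q : Type*} [Fintype Q] {n : ℕ} (hn : 2 ≤ n) {p : ℝ} (hp : 1 ≤ p)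
    (w : Q → ℝ) (hw : ∀ q, 0 ≤ w q) (v : Fin n → Q → ℝ) (hv : ∀ i q, |v i q| ≤ 1)
    {W D0 : ℝ} (hW : ∀ i, ∑ q, (if v i q = 0 then 0 else w q) ≤ W) (hW0 : 0 < W) (hD0 : 0 < D0)
    (hD : ∀ i j, i ≠ j → D0 ≤ ∑ q, w q * |v i q - v j q| ^ p)
    {ε : ℝ} (hε : 0 < ε) (hε2 : ε ≤ 1 / 2) {d : ℕ}
    (hd : 13 * (2:ℝ) ^ (2 * p + 3) / ε ^ 3 * (W / D0) ^ 2 * Real.log n ≤ d) :
    ∃ (f : Fin n → Fin d → ℝ) (s : ℝ), 0 < s ∧ ∀ i j,
      (1 - ε) ^ 2 * (s * ∑ q, w q * |v i q - v j q| ^ p) ≤ ∑ b, |f i b - f j b| ^ p ∧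
      ∑ b, |f i b - f j b| ^ p ≤ (1 + ε) ^ 2 * (s * ∑ q, w q * |v i q - v j q| ^ p) := by
  classical
  have hp0 : p ≠ 0 := by linarith
  have h2p : (0:ℝ) < 2 ^ p := Real.rpow_pos_of_pos two_pos p
  set β := ε * D0 / (2 ^ p * 4 * W ^ 2) with hβdef
  have hβ : 0 < β := by positivity
  set Z0 := ∑ q, w q
  have hZ0 : 0 ≤ Z0 := sum_nonneg fun q _ => hw q
  set t := ⌈β * Z0⌉₊ + 1 with ht
  have htge : β * Z0 ≤ (t:ℝ) := by
    rw [ht]; push_cast; linarith [Nat.le_ceil (β * Z0)]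
  have htpos : (0:ℝ) < t := by positivity
  set Z := (t:ℝ) / β with hZ
  have hZpos : 0 < Z := by positivity
  have hZge : Z0 ≤ Z := by rw [hZ, le_div_iff₀ hβ]; linarith
  set P : Option Q → ℝ := fun o => o.elim (1 - Z0 / Z) (fun q => w q / Z) with hPdef
  have hP : ∀ o, 0 ≤ P o := by
    rintro (_ | q)
    · simpa [hPdef] using div_le_one_of_le₀ hZge hZpos.le
    · exact div_nonneg (hw q) hZpos.le
  have hP1 : ∑ o, P o = 1 := by
    simp [hPdef, Fintype.sum_option, ← sum_div, Z0]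
  set u : Fin n → Option Q → ℝ := fun i o => o.elim 0 (v i) with hu
  have hu1 : ∀ i o, |u i o| ≤ 1 := by
    rintro i (_ | q)
    · simp [hu]
    · exact hv i q
  set Y : Fin n → Fin n → (Fin t → Option Q) → ℝ := fun i j ω =>
    |clamp (∑ k, u i (ω k)) - clamp (∑ k, u j (ω k))| ^ p / 2 ^ p with hY
  set D : Fin n → Fin n → ℝ := fun i j => ∑ q, w q * |v i q - v j q| ^ p with hDdef
  set μ : Fin n → Fin n → ℝ := fun i j => ∑ ω, pw P ω * Y i j ω with hμdef
  have hY0 : ∀ i j ω, 0 ≤ Y i j ω := fun i j ω =>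
    div_nonneg (Real.rpow_nonneg (abs_nonneg _) p) h2p.le
  have hY1 : ∀ i j ω, Y i j ω ≤ 1 := fun i j ω => by
    refine (div_le_one h2p).2 (Real.rpow_le_rpow (abs_nonneg _) ?_ (by linarith))
    exact (abs_sub _ _).trans
      (by linarith [abs_clamp_le (∑ k, u i (ω k)), abs_clamp_le (∑ k, u j (ω k))])
  have hmean : ∀ i j, i ≠ j → |μ i j - β * D i j / 2 ^ p| ≤ ε * (β * D i j / 2 ^ p) := by
    intro i j hij
    have hEF : ∑ o, P o * |u i o - u j o| ^ p = D i j / Z := by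
      simp [hPdef, hu, hDdef, Fintype.sum_option, Real.zero_rpow hp0, sum_div,
        div_mul_eq_mul_div]
    have hEG : ∑ o, P o * (if u i o = 0 ∧ u j o = 0 then (0:ℝ) else 1) ≤ 2 * W / Z := by
      rw [Fintype.sum_option]
      simp only [hPdef, hu, Option.elim, and_self, if_true, mul_zero, zero_add]
      calc ∑ q, w q / Z * (if v i q = 0 ∧ v j q = 0 then (0:ℝ) else 1)
          ≤ ∑ q, ((if v i q = 0 then 0 else w q) + (if v j q = 0 then 0 else w q)) / Z := by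
            refine sum_le_sum fun q _ => ?_
            rw [div_mul_eq_mul_div]
            refine div_le_div_of_nonneg_right ?_ hZpos.le
            have := hw q
            by_cases h1 : v i q = 0 <;> by_cases h2 : v j q = 0 <;>
              simp only [h1, h2, and_self, and_true, and_false, if_true, if_false, mul_zero, mul_one,
                add_zero, zero_add] <;> linarith
        _ ≤ _ := by
            rw [← sum_div, sum_add_distrib]
            exact div_le_div_of_nonneg_right (by linarith [hW i, hW j]) hZpos.le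
    have hmain := bucket_mean (t := t) hp hP hP1 (u i) (u j) (hu1 i) (hu1 j) hEG
    rw [hEF] at hmain
    have eμ : μ i j * 2 ^ p =
        ∑ ω : Fin t → Option Q, pw P ω *
          |clamp (∑ k, u i (ω k)) - clamp (∑ k, u j (ω k))| ^ p := by
      simp only [hμdef, hY, sum_mul, mul_assoc, div_mul_cancel₀ _ h2p.ne']
    have eA : (t:ℝ) * (D i j / Z) = β * D i j := by rw [hZ]; field_simp
    have eB : (t:ℝ) ^ 2 * (2 * W / Z) ^ 2 = β ^ 2 * (4 * W ^ 2) := by
      rw [hZ]; field_simp; ring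
    rw [eA, eB, ← eμ] at hmain
    have herr : |μ i j * 2 ^ p - β * D i j| ≤ 2 ^ p * (β ^ 2 * (4 * W ^ 2)) := hmain
    have hβ2 : 2 ^ p * (β ^ 2 * (4 * W ^ 2)) ≤ ε * (β * D i j) := by
      calc 2 ^ p * (β ^ 2 * (4 * W ^ 2)) = β * (ε * D0) := by rw [hβdef]; field_simp
        _ ≤ β * (ε * D i j) := by gcongr; exact hD i j hij
        _ = _ := by ring
    have hdiv : μ i j - β * D i j / 2 ^ p = (μ i j * 2 ^ p - β * D i j) / 2 ^ p := by
      field_simp
    rw [hdiv, abs_div, abs_of_pos h2p, mul_div_assoc']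
    exact div_le_div_of_nonneg_right (herr.trans hβ2) h2p.le
  set pairs := (univ : Finset (Fin n × Fin n)).filter (fun z => z.1 ≠ z.2) with hpairs
  have hlogn : 0 < Real.log n := Real.log_pos (by exact_mod_cast (show 1 < n by omega))
  have hμlow : ∀ z ∈ pairs,
      13 / 4 * Real.log n ≤ d * μ z.1 z.2 * (ε ^ 2 / 4) := by
    intro z hz
    rw [hpairs, mem_filter] at hz
    have hμ := (abs_le.1 (hmean z.1 z.2 hz.2)).1
    have hβD : β * D0 / 2 ^ p ≤ β * D z.1 z.2 / 2 ^ p := by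
      gcongr; exact hD _ _ hz.2
    have hq : ε * (β * D z.1 z.2 / 2 ^ p) ≤ 1 / 2 * (β * D z.1 z.2 / 2 ^ p) :=
      mul_le_mul_of_nonneg_right hε2 (le_trans (by positivity) hβD)
    have hμ' : β * D0 / 2 ^ p / 2 ≤ μ z.1 z.2 := by linarith
    calc 13 / 4 * Real.log n
        = 13 * (2:ℝ) ^ (2 * p + 3) / ε ^ 3 * (W / D0) ^ 2 * Real.log n
          * (β * D0 / 2 ^ p / 2) * (ε ^ 2 / 4) := by
          rw [hβdef, show 2 * p + 3 = p + p + (3:ℕ) by push_cast; ring,
            Real.rpow_add_natCast two_ne_zero, Real.rpow_add two_pos]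
          field_simp
          ring
      _ ≤ d * (β * D0 / 2 ^ p / 2) * (ε ^ 2 / 4) := by gcongr
      _ ≤ _ := by gcongr
  have hex := exists_good (pw_nonneg (t := t) hP) (sum_pw hP1) pairs
    (fun z => Y z.1 z.2) (fun z => hY0 z.1 z.2) (fun z => hY1 z.1 z.2) hn
    ((card_le_univ _).trans (le_of_eq (by simp))) hε (by linarith) hμlow
  obtain ⟨Fd, hFd⟩ := hex
  have hd0 : (0:ℝ) < d := lt_of_lt_of_le (by positivity) hd
  refine ⟨fun i b => clamp (∑ k, u i (Fd b k)), d * β, by positivity, fun i j => ?_⟩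
  by_cases hij : i = j
  · subst hij; simp [Real.zero_rpow hp0]
  have hz : (i, j) ∈ pairs := by simp [hpairs, hij]
  have hb := hFd (i, j) hz
  have hsum : ∑ b, |clamp (∑ k, u i (Fd b k)) - clamp (∑ k, u j (Fd b k))| ^ p
      = 2 ^ p * ∑ b, Y i j (Fd b) := by
    rw [mul_sum]
    refine sum_congr rfl fun b _ => ?_
    simp only [hY]; field_simp
  have hm := abs_le.1 (hmean i j hij)
  have e : (d:ℝ) * β * D i j = 2 ^ p * (d * (β * D i j / 2 ^ p)) := by field_simp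
  show (1 - ε) ^ 2 * (d * β * D i j) ≤ _ ∧ _ ≤ (1 + ε) ^ 2 * (d * β * D i j)
  rw [e, hsum]
  constructor
  · calc (1 - ε) ^ 2 * (2 ^ p * (d * (β * D i j / 2 ^ p)))
        = 2 ^ p * ((1 - ε) * (d * ((1 - ε) * (β * D i j / 2 ^ p)))) := by ring
      _ ≤ 2 ^ p * ((1 - ε) * (d * μ i j)) := by
          gcongr
          · linarith
          · linarith
      _ ≤ _ := by gcongr; exact hb.1
  · calc 2 ^ p * ∑ b, Y i j (Fd b) ≤ 2 ^ p * ((1 + ε) * (d * μ i j)) := by
          gcongr; exact hb.2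
      _ ≤ 2 ^ p * ((1 + ε) * (d * ((1 + ε) * (β * D i j / 2 ^ p)))) := by
          gcongr; linarith
      _ = _ := by ring

end Vale.Agent.P249
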