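import Mathlib
import Vale.Agent.P249.Layers
import Vale.Agent.P249.Sampling

/-!
Dimension reduction for finite subsets of `ℓ_p^m` with bounded aspect ratio.
-/

namespace Vale.Agent.P249

open Finset

/-- Finite-coordinate version, in terms of `p`-th powers of the distances. -/
theorem embed_finite {p : ℝ} (hp : 1 ≤ p) {D : ℝ} (hD : 1 < D) :
    ∃ C : ℝ, 0 < C ∧ ∀ (ι : Type) [Fintype ι] (n : ℕ), 2 ≤ n → ∀ (x : Fin n → ι → ℝ)
      (Φ δ : ℝ), 0 < δ →
      (∀ i j, i ≠ j → δ ^ p ≤ ∑ c, |x i c - x j c| ^ p ∧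
        ∑ c, |x i c - x j c| ^ p ≤ (Φ * δ) ^ p) → 0 ≤ Φ →
      ∀ d : ℕ, C * Φ ^ (2 * p) * Real.log n ≤ d →
      ∃ (f : Fin n → Fin d → ℝ) (s : ℝ), 0 < s ∧ ∀ i j,
        s * ∑ c, |x i c - x j c| ^ p ≤ ∑ b, |f i b - f j b| ^ p ∧
        ∑ b, |f i b - f j b| ^ p ≤ D * s * ∑ c, |x i c - x j c| ^ p := by
  have hp0 : p ≠ 0 := by linarith
  have hppos : 0 < p := by linarith
  -- parameters
  set ε := min (1 / 8 : ℝ) ((D - 1) / (7 * D)) with hεdef
  have hε : 0 < ε := lt_min (by norm_num) (div_pos (by linarith) (by linarith))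
  have hε8 : ε ≤ 1 / 8 := min_le_left _ _
  have hεD : (1 + ε) ^ 2 ≤ D * ((1 - ε) ^ 2 * (1 - ε) ^ 2) := by
    have h1 : ε * (7 * D) ≤ D - 1 :=
      (le_div_iff₀ (by linarith)).1 (min_le_right _ _)
    have h2 : 1 - 4 * ε ≤ (1 - ε) ^ 2 * (1 - ε) ^ 2 := by
      nlinarith [sq_nonneg ε, mul_nonneg hε.le (sq_nonneg ε), sq_nonneg (ε * ε)]
    have h3 : (1 + ε) ^ 2 ≤ 1 + 3 * ε := by nlinarith
    have h4 : 1 + 3 * ε ≤ D * (1 - 4 * ε) := by nlinarith
    exact h3.trans (h4.trans (mul_le_mul_of_nonneg_left h2 (by linarith)))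
  obtain ⟨k, hk⟩ := pow_unbounded_of_one_lt (2 * p / ε) (one_lt_two (α := ℝ))
  have hk' : 2 * p / 2 ^ k ≤ ε := by
    rw [div_le_iff₀ (by positivity)]
    rw [div_lt_iff₀ hε] at hk
    linarith
  have hk1 : (2:ℝ) / 2 ^ k ≤ 1 := by
    refine le_trans ?_ (hk'.trans (by linarith))
    exact div_le_div_of_nonneg_right (by linarith) (by positivity)
  obtain ⟨L, hL⟩ := exists_nat_ge ((k + 1) / ε : ℝ)
  have hLpos : 1 ≤ L := by
    have h0 : (0:ℝ) < L := lt_of_lt_of_le (by positivity) hL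
    exact_mod_cast h0
  have hLR : (0:ℝ) < L := by exact_mod_cast hLpos
  have hL' : ((k:ℝ) + 1) ≤ ε * L := by
    rw [div_le_iff₀ hε] at hL; linarith
  have hkeep : (1 - ε) ^ 2 * (L:ℝ) ≤ ((L:ℝ) - (k + 1)) * (1 - 2 / 2 ^ k) ^ p := by
    have h1 : 1 - ε ≤ (1 - 2 / (2:ℝ) ^ k) ^ p := by
      have := one_add_mul_self_le_rpow_one_add
        (s := -(2 / (2:ℝ) ^ k)) (by linarith) hp
      rw [mul_neg, mul_div_assoc', ← sub_eq_add_neg, mul_comm p 2, ← sub_eq_add_neg] at this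
      linarith
    have h0 : 0 ≤ 1 - ε := by linarith
    calc (1 - ε) ^ 2 * (L:ℝ) = ((L:ℝ) - ε * L) * (1 - ε) := by ring
      _ ≤ ((L:ℝ) - (k + 1)) * (1 - 2 / 2 ^ k) ^ p :=
          mul_le_mul (by linarith) h1 h0 (by nlinarith)
  set c₁ : ℝ := ((2:ℝ) ^ L) ^ p with hc₁
  have hc₁1 : 1 ≤ c₁ := Real.one_le_rpow (one_le_pow₀ one_le_two) (by linarith)
  refine ⟨13 * (2:ℝ) ^ (2 * p + 3) / ε ^ 3 * (3 * c₁ / (1 - ε) ^ 2) ^ 2, ?_, ?_⟩
  · have : 0 < 1 - ε := by linarith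
    positivity
  intro ι _ n hn x Φ δ hδ hx hΦ0 d hd
  classical
  set i₀ : Fin n := ⟨0, by omega⟩
  have hΦ : 1 ≤ Φ := by
    have h := hx i₀ ⟨1, by omega⟩ (by simp [i₀, Fin.ext_iff])
    have := (Real.rpow_le_rpow_iff hδ.le (mul_nonneg hΦ0 hδ.le) hppos).1 (h.1.trans h.2)
    nlinarith
  set y : Fin n → ι → ℝ := fun i c => x i c - x i₀ c with hy
  have hyx : ∀ i j c, y i c - y j c = x i c - x j c := fun i j c => by simp only [hy]; ring
  have hynorm : ∀ i, ∑ c, |y i c| ^ p ≤ (Φ * δ) ^ p := by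
    intro i
    by_cases hi : i = i₀
    · subst hi; simp [hy, Real.zero_rpow hp0]; positivity
    · simpa only [hy] using (hx i i₀ hi).2
  set M := Fintype.card ι with hM
  set τ := δ / (((M:ℝ) + 1) * 2 ^ L) with hτdef
  have hτ : 0 < τ := by positivity
  have hτM : (M:ℝ) * (τ * 2 ^ L) ^ p ≤ δ ^ p := by
    have h1 : τ * 2 ^ L = δ / ((M:ℝ) + 1) := by rw [hτdef]; field_simp
    rw [h1, Real.div_rpow hδ.le (by positivity), mul_div_assoc', div_le_iff₀ (by positivity),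
      mul_comm]
    refine mul_le_mul_of_nonneg_left ?_ (by positivity)
    calc (M:ℝ) ≤ (M:ℝ) + 1 := by linarith
      _ ≤ ((M:ℝ) + 1) ^ p := Real.self_le_rpow_of_one_le (le_add_of_nonneg_left (by positivity)) hp
  obtain ⟨R, hR⟩ := pow_unbounded_of_one_lt (Φ * δ / τ) (one_lt_two (α := ℝ))
  have htop : ∀ i c, |y i c| ≤ τ * 2 ^ (L * R) := by
    intro i c
    have h1 : |y i c| ≤ Φ * δ :=
      (Real.rpow_le_rpow_iff (abs_nonneg _) (by positivity) hppos).1
        ((single_le_sum (fun e _ => Real.rpow_nonneg (abs_nonneg (y i e)) p) (mem_univ c)).trans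
          (hynorm i))
    rw [div_lt_iff₀ hτ] at hR
    have h2 : (2:ℝ) ^ R ≤ 2 ^ (L * R) :=
      pow_le_pow_right₀ one_le_two (Nat.le_mul_of_pos_left R (by omega))
    have h3 := mul_le_mul_of_nonneg_left h2 hτ.le
    linarith
  -- atoms
  set w : ι × Fin L × Fin (R + 1) → ℝ := fun q => bd τ L q.2.1 (q.2.2 + 1) ^ p / L with hw
  set v : Fin n → ι × Fin L × Fin (R + 1) → ℝ := fun i q =>
    layer (bd τ L q.2.1 q.2.2) (bd τ L q.2.1 (q.2.2 + 1)) (y i q.1)
      / bd τ L q.2.1 (q.2.2 + 1) with hv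
  have hbpos : ∀ j l, 0 < bd τ L j (l + 1) := fun j l => by simp only [bd]; positivity
  have hsum : ∀ i j, ∑ q, w q * |v i q - v j q| ^ p = (∑ c, ∑ o ∈ range L,
      ∑ l ∈ range (R + 1), |layer (bd τ L o l) (bd τ L o (l + 1)) (y i c)
        - layer (bd τ L o l) (bd τ L o (l + 1)) (y j c)| ^ p) / L := by
    intro i j
    rw [Fintype.sum_prod_type, sum_div]
    refine sum_congr rfl fun c _ => ?_
    rw [Fintype.sum_prod_type, sum_div, ← Fin.sum_univ_eq_sum_range]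
    refine sum_congr rfl fun o _ => ?_
    rw [sum_div, ← Fin.sum_univ_eq_sum_range]
    refine sum_congr rfl fun l _ => ?_
    have hb := hbpos o l
    simp only [hw, hv]
    rw [← sub_div, abs_div, abs_of_pos hb, Real.div_rpow (abs_nonneg _) hb.le]
    field_simp
  have hupper : ∀ i j, ∑ q, w q * |v i q - v j q| ^ p ≤ ∑ c, |x i c - x j c| ^ p := by
    intro i j
    rw [hsum, div_le_iff₀ hLR, sum_mul]
    refine sum_le_sum fun c _ => ?_
    refine (sum_le_sum fun o _ => layers_upper hτ.le L o R hp (htop i c) (htop j c)).trans ?_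
    rw [sum_const, card_range, nsmul_eq_mul, hyx, mul_comm]
  have hlower : ∀ i j,
      (1 - ε) ^ 2 * ∑ c, |x i c - x j c| ^ p ≤ ∑ q, w q * |v i q - v j q| ^ p := by
    intro i j
    rw [hsum, le_div_iff₀ hLR, mul_sum, sum_mul]
    refine sum_le_sum fun c _ => ?_
    refine le_trans ?_ (layers_lower hτ L R k hp hk1 (htop i c) (htop j c))
    rw [hyx, Real.mul_rpow (by linarith) (abs_nonneg _), ← mul_assoc, mul_right_comm]
    exact mul_le_mul_of_nonneg_right hkeep (Real.rpow_nonneg (abs_nonneg _) p)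
  set W := 3 * c₁ * (Φ * δ) ^ p with hWdef
  have hW : ∀ i, ∑ q, (if v i q = 0 then 0 else w q) ≤ W := by
    intro i
    have hz : ∀ q, (v i q = 0) ↔
        layer (bd τ L q.2.1 q.2.2) (bd τ L q.2.1 (q.2.2 + 1)) (y i q.1) = 0 := fun q => by
      simp only [hv, div_eq_zero_iff, (hbpos q.2.1 q.2.2).ne', or_false]
    calc ∑ q, (if v i q = 0 then 0 else w q)
        = ∑ c, ∑ o ∈ range L, (∑ l ∈ range (R + 1),
            if layer (bd τ L o l) (bd τ L o (l + 1)) (y i c) = 0 then 0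
            else bd τ L o (l + 1) ^ p) / L := by
          rw [Fintype.sum_prod_type]
          refine sum_congr rfl fun c _ => ?_
          rw [Fintype.sum_prod_type, ← Fin.sum_univ_eq_sum_range]
          refine sum_congr rfl fun o _ => ?_
          rw [sum_div, ← Fin.sum_univ_eq_sum_range]
          refine sum_congr rfl fun l _ => ?_
          simp only [hz, hw]
          split_ifs <;> simp
      _ ≤ ∑ c, ∑ _o ∈ range L, ((τ * 2 ^ L) ^ p + 2 * c₁ * |y i c| ^ p) / L := by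
          refine sum_le_sum fun c _ => sum_le_sum fun o ho => ?_
          exact div_le_div_of_nonneg_right
            (layers_weight hτ.le L o hLpos (mem_range.1 ho).le hp (y i c) R) hLR.le
      _ = (M:ℝ) * (τ * 2 ^ L) ^ p + 2 * c₁ * ∑ c, |y i c| ^ p := by
          simp only [sum_const, card_range, nsmul_eq_mul]
          rw [mul_sum]
          simp only [mul_div_cancel₀ _ hLR.ne', sum_add_distrib, sum_const, card_univ,
            nsmul_eq_mul, hM]
      _ ≤ _ := by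
          rw [hWdef]
          have h1 : δ ^ p ≤ (Φ * δ) ^ p :=
            Real.rpow_le_rpow hδ.le (le_mul_of_one_le_left hδ.le hΦ) hppos.le
          have h2 := mul_le_mul_of_nonneg_right hc₁1 (Real.rpow_nonneg
            (by positivity : 0 ≤ Φ * δ) p)
          have h3 := mul_le_mul_of_nonneg_left (hynorm i) (by linarith : 0 ≤ 2 * c₁)
          linarith
  have hvb : ∀ i q, |v i q| ≤ 1 := by
    intro i q
    simp only [hv]
    rw [abs_div, abs_of_pos (hbpos _ _), div_le_one (hbpos _ _)]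
    exact abs_layer_le (bd_nonneg hτ.le L _ _) (bd_le_succ hτ.le L _ _) _
  have hε1 : 0 < 1 - ε := by linarith
  obtain ⟨f, s, hs, hf⟩ := sampling hn hp w
    (fun q => div_nonneg (Real.rpow_nonneg (bd_nonneg hτ.le L _ _) p) hLR.le) v hvb hW
    (by positivity) (D0 := (1 - ε) ^ 2 * δ ^ p) (by positivity)
    (fun i j hij => le_trans (mul_le_mul_of_nonneg_left (hx i j hij).1 (by positivity))
      (hlower i j)) hε (by linarith) (d := d) (by
      refine le_trans (le_of_eq ?_) hd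
      have e : W / ((1 - ε) ^ 2 * δ ^ p) = 3 * c₁ / (1 - ε) ^ 2 * Φ ^ p := by
        rw [hWdef, Real.mul_rpow hΦ0 hδ.le]; field_simp
      rw [e, mul_comm 2 p, Real.rpow_mul hΦ0, ← Real.rpow_natCast (3 * c₁ / _ * _) 2,
        Real.mul_rpow (by positivity) (by positivity), ← Real.rpow_natCast (3 * c₁ / _) 2]
      push_cast
      ring)
  refine ⟨f, (1 - ε) ^ 2 * (1 - ε) ^ 2 * s, by positivity, fun i j => ⟨?_, ?_⟩⟩
  · refine le_trans ?_ (hf i j).1
    calc _ = (1 - ε) ^ 2 * (s * ((1 - ε) ^ 2 * ∑ c, |x i c - x j c| ^ p)) := by ring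
      _ ≤ _ := by gcongr; exact hlower i j
  · refine (hf i j).2.trans ?_
    calc (1 + ε) ^ 2 * (s * ∑ q, w q * |v i q - v j q| ^ p)
        ≤ (1 + ε) ^ 2 * (s * ∑ c, |x i c - x j c| ^ p) := by gcongr; exact hupper i j
      _ ≤ D * ((1 - ε) ^ 2 * (1 - ε) ^ 2) * (s * ∑ c, |x i c - x j c| ^ p) :=
          mul_le_mul_of_nonneg_right hεD (by positivity)
      _ = _ := by ring

end Vale.Agent.P249
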