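import Mathlib

/-!
A finite family of simple functions in `L_p` lies isometrically in a finite `ℓ_p`.
-/

namespace Vale.Agent.P249

open MeasureTheory Finset
open scoped ENNReal

variable {α : Type*} [MeasurableSpace α] {μ : Measure α} {p : ℝ}

/-- A finite family of simple functions in `L_p` lies isometrically in a finite `ℓ_p`. -/
lemma simple_coords (hp : 1 ≤ p) [Fact (1 ≤ ENNReal.ofReal p)] {n : ℕ}
    (g : Fin n → SimpleFunc α ℝ) (hg : ∀ i, MemLp (g i) (ENNReal.ofReal p) μ) :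
    ∃ (ι : Type) (_ : Fintype ι) (z : Fin n → ι → ℝ), ∀ i j,
      ∑ c, |z i c - z j c| ^ p = ‖(hg i).toLp _ - (hg j).toLp _‖ ^ p := by
  classical
  have hp0 : 0 < p := by linarith
  set F : α → (Fin n → ℝ) := fun a i => g i a with hF
  have hFm : Measurable F := measurable_pi_lambda _ fun i => (g i).measurable
  have hfin : (Set.range F).Finite :=
    (Set.Finite.pi' fun i => (g i).finite_range).subset
      (by rintro _ ⟨a, rfl⟩ i; exact Set.mem_range_self a)
  set G : SimpleFunc α (Fin n → ℝ) :=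
    ⟨F, fun v => hFm (measurableSet_singleton v), hfin⟩ with hG
  refine ⟨{v : Fin n → ℝ // v ∈ G.range}, inferInstance,
    fun i c => c.1 i * (μ.real (G ⁻¹' {c.1})) ^ (1 / p), fun i j => ?_⟩
  have hfinite : ∀ v : Fin n → ℝ, v i - v j ≠ 0 → μ (G ⁻¹' {v}) ≠ ∞ := by
    intro v hv
    have hv' : v i ≠ 0 ∨ v j ≠ 0 := by
      by_contra hc; push Not at hc; exact hv (by rw [hc.1, hc.2, sub_zero])
    have hle : ∀ k, v k ≠ 0 → μ (G ⁻¹' {v}) ≠ ∞ := fun k hk =>
      ne_top_of_le_ne_top (SimpleFunc.measure_preimage_lt_top_of_memLp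
        (ne_of_gt (ENNReal.ofReal_pos.2 hp0)) ENNReal.ofReal_ne_top (g k) (hg k) _ hk).ne
        (measure_mono fun a ha => by
          simp only [Set.mem_preimage, Set.mem_singleton_iff] at ha ⊢
          exact congrFun ha k)
    rcases hv' with h | h <;> exact hle _ h
  have key : ∫⁻ a, ENNReal.ofReal (|g i a - g j a| ^ p) ∂μ
      = ∑ v ∈ G.range, ENNReal.ofReal (|v i - v j| ^ p) * μ (G ⁻¹' {v}) := by
    rw [← SimpleFunc.map_lintegral (fun v => ENNReal.ofReal (|v i - v j| ^ p)) G,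
      ← SimpleFunc.lintegral_eq_lintegral]
    rfl
  have hnorm : ‖(hg i).toLp _ - (hg j).toLp _‖ ^ p
      = (∫⁻ a, ENNReal.ofReal (|g i a - g j a| ^ p) ∂μ).toReal := by
    rw [← MemLp.toLp_sub, Lp.norm_toLp,
      eLpNorm_eq_lintegral_rpow_enorm_toReal (ne_of_gt (ENNReal.ofReal_pos.2 hp0))
        ENNReal.ofReal_ne_top,
      ENNReal.toReal_ofReal hp0.le, ← ENNReal.toReal_rpow, ← Real.rpow_mul ENNReal.toReal_nonneg,
      one_div_mul_cancel hp0.ne', Real.rpow_one]
    congr 1
    refine lintegral_congr fun a => ?_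
    rw [Real.enorm_eq_ofReal_abs, ENNReal.ofReal_rpow_of_nonneg (abs_nonneg _) hp0.le]
    rfl
  rw [hnorm, key, ENNReal.toReal_sum]
  · rw [← Finset.sum_coe_sort G.range
      (fun v => (ENNReal.ofReal (|v i - v j| ^ p) * μ (G ⁻¹' {v})).toReal)]
    refine sum_congr rfl fun c _ => ?_
    rw [← sub_mul, abs_mul, Real.mul_rpow (abs_nonneg _) (abs_nonneg _),
      abs_of_nonneg (Real.rpow_nonneg measureReal_nonneg _),
      ← Real.rpow_mul measureReal_nonneg, one_div_mul_cancel hp0.ne', Real.rpow_one,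
      ENNReal.toReal_mul, ENNReal.toReal_ofReal (Real.rpow_nonneg (abs_nonneg _) p)]
    rfl
  · intro v _
    by_cases h : v i - v j = 0
    · simp [h, Real.zero_rpow hp0.ne']
    · exact ENNReal.mul_ne_top ENNReal.ofReal_ne_top (hfinite v h)

end Vale.Agent.P249
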