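import Mathlib

/-!
A two-hop sparse spanner of a finite pseudometric with `O(n (log n)²)` edges and stretch
`O(log n)` (deterministic Thorup–Zwick construction).
-/

namespace Vale.Agent.P249

open Finset

variable {V : Type*} [Fintype V] [DecidableEq V]

omit [Fintype V] in
/-- The `q` nearest members of `A`. -/
lemma exists_nearest (f : V → ℝ) (A : Finset V) (q : ℕ) :
    ∃ N ⊆ A, N.card = min q A.card ∧ ∀ u ∈ N, ∀ w ∈ A, w ∉ N → f u ≤ f w := by
  induction q with
  | zero => exact ⟨∅, empty_subset A, by simp, by simp⟩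
  | succ q ih =>
    obtain ⟨N, hNA, hcard, hN⟩ := ih
    rcases (A \ N).eq_empty_or_nonempty with h | h
    · have hAN : A ⊆ N := sdiff_eq_empty_iff_subset.1 h
      refine ⟨N, hNA, ?_, hN⟩
      have := card_le_card hAN
      omega
    · obtain ⟨v, hv, hmin⟩ := exists_min_image (A \ N) f h
      rw [mem_sdiff] at hv
      refine ⟨insert v N, insert_subset hv.1 hNA, ?_, ?_⟩
      · have hlt : N.card < A.card :=
          card_lt_card ⟨hNA, fun hc => hv.2 (hc hv.1)⟩
        rw [card_insert_of_notMem hv.2]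
        omega
      · intro u hu w hw hwN
        rw [mem_insert, not_or] at hwN
        rcases mem_insert.1 hu with rfl | hu
        · exact hmin w (mem_sdiff.2 ⟨hw, hwN.2⟩)
        · exact hN u hu w hw hwN.2

omit [Fintype V] in
/-- Greedy hitting set. -/
lemma exists_hitting {ι : Type*} [DecidableEq ι] (A : Finset V) (T : Finset ι) (N : ι → Finset V)
    {q : ℕ} (hN : ∀ j ∈ T, N j ⊆ A) (hq : ∀ j ∈ T, q ≤ (N j).card) (hA : A.Nonempty) :
    ∀ s : ℕ, ∃ H ⊆ A, H.card ≤ s ∧
      ((T.filter fun j => Disjoint (N j) H).card : ℝ)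
        ≤ T.card * Real.exp (-((q : ℝ) / A.card)) ^ s
  | 0 => ⟨∅, empty_subset A, by simp, by simp⟩
  | s + 1 => by
    classical
    obtain ⟨H, hHA, hcard, hH⟩ := exists_hitting A T N hN hq hA s
    set U := T.filter fun j => Disjoint (N j) H with hU
    have hAr : (0:ℝ) < A.card := by exact_mod_cast hA.card_pos
    have hsum : q * U.card ≤ ∑ a ∈ A, (U.filter fun j => a ∈ N j).card := by
      calc q * U.card = ∑ _j ∈ U, q := by rw [sum_const, smul_eq_mul, mul_comm]
        _ ≤ ∑ j ∈ U, (A.filter fun a => a ∈ N j).card := by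
            refine sum_le_sum fun j hj => (hq j (mem_filter.1 hj).1).trans (le_of_eq ?_)
            rw [filter_mem_eq_inter, inter_eq_right.2 (hN j (mem_filter.1 hj).1)]
        _ = _ := sum_card_bipartiteAbove_eq_sum_card_bipartiteBelow (fun j a => a ∈ N j)
    obtain ⟨a, ha, hmax⟩ := exists_max_image A (fun a => (U.filter fun j => a ∈ N j).card) hA
    refine ⟨insert a H, insert_subset ha hHA, (card_insert_le a H).trans (by omega), ?_⟩
    have h1 : (T.filter fun j => Disjoint (N j) (insert a H))
        = U.filter fun j => a ∉ N j := by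
      ext j; simp [hU, disjoint_insert_right]; tauto
    have h2 := card_filter_add_card_filter_not (s := U) (fun j => a ∈ N j)
    have h3 : q * U.card ≤ A.card * (U.filter fun j => a ∈ N j).card := by
      refine hsum.trans ((sum_le_sum hmax).trans (le_of_eq ?_))
      rw [sum_const, smul_eq_mul]
    have h4 : (q:ℝ) / A.card * U.card ≤ (U.filter fun j => a ∈ N j).card := by
      rw [div_mul_eq_mul_div, div_le_iff₀ hAr, mul_comm _ (A.card : ℝ)]
      exact_mod_cast h3
    rw [h1]
    have h5 : ((U.filter fun j => a ∉ N j).card : ℝ)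
        ≤ U.card * Real.exp (-((q:ℝ) / A.card)) := by
      have h2' : ((U.filter fun j => a ∈ N j).card : ℝ) + (U.filter fun j => a ∉ N j).card
          = U.card := by exact_mod_cast h2
      have h6 := mul_le_mul_of_nonneg_left (Real.add_one_le_exp (-((q:ℝ) / A.card)))
        (Nat.cast_nonneg U.card)
      linarith
    refine h5.trans ?_
    rw [pow_succ, ← mul_assoc]
    exact mul_le_mul_of_nonneg_right hH (Real.exp_pos _).le

/-- In a finite pseudometric there is a set `Ed` of few ordered pairs such that every two points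
are joined by a short path of two members of `Ed`. -/
theorem exists_spanner (dst : V → V → ℝ) (hd0 : ∀ u v, 0 ≤ dst u v) (hself : ∀ u, dst u u = 0)
    (hsymm : ∀ u v, dst u v = dst v u) (htri : ∀ u v w, dst u w ≤ dst u v + dst v w)
    (q L : ℕ) (hq : 2 * Real.log (Fintype.card V) < q) (hq1 : 1 ≤ q)
    (hL : Fintype.card V ≤ 2 ^ L) :
    ∃ Ed : Finset (V × V), Ed.card ≤ Fintype.card V * (L + 1) * (q + 1) ∧
      ∀ x z : V, ∃ w, (x, w) ∈ Ed ∧ (z, w) ∈ Ed ∧
        dst x w + dst z w ≤ (2 * L + 1) * dst x z := by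
  classical
  rcases isEmpty_or_nonempty V with hV | hV
  · exact ⟨∅, by simp, fun x => isEmptyElim x⟩
  have hnear : ∀ (A : Finset V) (v : V), ∃ N ⊆ A, N.card = min q A.card ∧
      ∀ u ∈ N, ∀ w ∈ A, w ∉ N → dst v u ≤ dst v w := fun A v => exists_nearest _ A q
  choose N hNA hNcard hNmin using hnear
  have hstep : ∀ A : Finset V, ∃ H : Finset V, A.Nonempty →
      H.Nonempty ∧ H ⊆ A ∧ H.card ≤ (A.card + 1) / 2 ∧ ∀ v, ¬ Disjoint (N A v) H := by
    intro A
    rcases A.eq_empty_or_nonempty with rfl | hA
    · exact ⟨∅, fun h => absurd h not_nonempty_empty⟩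
    have hApos := hA.card_pos
    rcases le_or_gt A.card q with hle | hgt
    · obtain ⟨a, ha⟩ := hA
      refine ⟨{a}, fun _ => ⟨singleton_nonempty a, singleton_subset_iff.2 ha, ?_, fun v => ?_⟩⟩
      · rw [card_singleton]; omega
      · have : N A v = A := eq_of_subset_of_card_le (hNA A v) (by rw [hNcard]; omega)
        rw [this, disjoint_singleton_right]
        exact fun h => h ha
    · obtain ⟨H, hHA, hHcard, hH⟩ := exists_hitting A (univ : Finset V) (N A)
        (fun v _ => hNA A v) (q := q) (fun v _ => by rw [hNcard]; omega) hA ((A.card + 1) / 2)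
      refine ⟨H, fun _ => ?_⟩
      have hnone : ∀ v, ¬ Disjoint (N A v) H := by
        intro v hv
        have h1 : (1:ℝ) ≤ ((univ.filter fun j => Disjoint (N A j) H).card : ℝ) := by
          exact_mod_cast card_pos.2 ⟨v, by simp [hv]⟩
        have h2 : ((card (univ : Finset V) : ℝ)) *
            Real.exp (-((q : ℝ) / A.card)) ^ ((A.card + 1) / 2) < 1 := by
          rw [← Real.exp_nat_mul]
          have hn : (0:ℝ) < (univ : Finset V).card := by exact_mod_cast univ_nonempty.card_pos
          rw [← Real.exp_log hn, ← Real.exp_add, Real.exp_lt_one_iff]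
          have hs : (A.card : ℝ) ≤ 2 * (((A.card + 1) / 2 : ℕ) : ℝ) := by
            exact_mod_cast (show A.card ≤ 2 * ((A.card + 1) / 2) by omega)
          have hA' : (0:ℝ) < A.card := by exact_mod_cast hApos
          have h3 : (q:ℝ) / 2 ≤ (((A.card + 1) / 2 : ℕ) : ℝ) * ((q:ℝ) / A.card) := by
            rw [mul_div_assoc', le_div_iff₀ hA']
            have := mul_le_mul_of_nonneg_left hs (Nat.cast_nonneg q)
            linarith
          rw [card_univ]
          linarith
        linarith
      refine ⟨?_, hHA, hHcard, hnone⟩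
      obtain ⟨v⟩ := hV
      obtain ⟨u, -, hu⟩ := not_disjoint_iff.1 (hnone v)
      exact ⟨u, hu⟩
  choose H hH using hstep
  set A : ℕ → Finset V := fun i => H^[i] univ with hAdef
  have hAne : ∀ i, (A i).Nonempty := by
    intro i
    induction i with
    | zero => exact univ_nonempty
    | succ i ih => rw [hAdef]; simp only [Function.iterate_succ_apply']; exact (hH _ ih).1
  have hAsucc : ∀ i, A (i + 1) = H (A i) := fun i => Function.iterate_succ_apply' H i univ
  have hAcard : ∀ i ≤ L, (A i).card ≤ 2 ^ (L - i) := by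
    intro i
    induction i with
    | zero => intro _; simpa [hAdef] using hL
    | succ i ih =>
      intro hi
      rw [hAsucc]
      refine (hH _ (hAne i)).2.2.1.trans ?_
      have := ih (by omega)
      rw [show L - i = L - (i + 1) + 1 by omega, pow_succ] at this
      omega
  have hclosest : ∀ i v, ∃ u ∈ A i, ∀ w ∈ A i, dst v u ≤ dst v w := fun i v =>
    exists_min_image (A i) (dst v) (hAne i)
  choose P hPmem hPmin using hclosest
  refine ⟨(univ ×ˢ range (L + 1)).biUnion (fun z : V × ℕ =>
    (insert (P z.2 z.1) (N (A z.2) z.1)).image (fun u => (z.1, u))), ?_, ?_⟩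
  · refine card_biUnion_le.trans ((sum_le_card_nsmul _ _ (q + 1) fun z _ => ?_).trans ?_)
    · refine card_image_le.trans ((card_insert_le _ _).trans ?_)
      rw [hNcard]; omega
    · simp
  intro x z
  set Ed := (univ ×ˢ range (L + 1)).biUnion (fun z : V × ℕ =>
    (insert (P z.2 z.1) (N (A z.2) z.1)).image (fun u => (z.1, u))) with hEd
  have hmemP : ∀ i ≤ L, ∀ v, (v, P i v) ∈ Ed := fun i hi v =>
    mem_biUnion.2 ⟨(v, i), by simp; omega, mem_image.2 ⟨_, mem_insert_self _ _, rfl⟩⟩
  have hmemN : ∀ i ≤ L, ∀ v, ∀ u ∈ N (A i) v, (v, u) ∈ Ed := fun i hi v u hu =>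
    mem_biUnion.2 ⟨(v, i), by simp; omega, mem_image.2 ⟨u, mem_insert_of_mem hu, rfl⟩⟩
  by_contra hcon
  push Not at hcon
  have hdxz := hd0 x z
  -- one hop from `P i v` into the near set of the other end
  have hkey : ∀ i ≤ L, ∀ a b : V, (a = x ∧ b = z ∨ a = z ∧ b = x) →
      dst a (P i a) ≤ i * dst x z → P i a ∉ N (A i) b ∧ dst b (P i a) ≤ (i + 1) * dst x z := by
    intro i hi a b hab hd
    have hb : dst b (P i a) ≤ (i + 1) * dst x z := by
      have := htri b a (P i a)
      have e : dst b a = dst x z := by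
        rcases hab with ⟨rfl, rfl⟩ | ⟨rfl, rfl⟩
        · exact hsymm _ _
        · rfl
      linarith
    refine ⟨fun hmem => ?_, hb⟩
    have hiL : (i:ℝ) ≤ L := by exact_mod_cast hi
    have h0 := mul_le_mul_of_nonneg_right hiL hdxz
    rcases hab with ⟨rfl, rfl⟩ | ⟨rfl, rfl⟩
    · have := hcon _ (hmemP i hi a) (hmemN i hi b _ hmem)
      linarith
    · have := hcon _ (hmemN i hi b _ hmem) (hmemP i hi a)
      linarith
  have hind : ∀ i ≤ L,
      dst x (P i x) ≤ i * dst x z ∨ dst z (P i z) ≤ i * dst x z := by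
    intro i
    induction i with
    | zero =>
      intro _
      refine Or.inl ((hPmin 0 x x (mem_univ x)).trans (le_of_eq ?_))
      rw [hself]; simp
    | succ i ih =>
      intro hi
      have hstep' : ∀ a b : V, (a = x ∧ b = z ∨ a = z ∧ b = x) →
          dst a (P i a) ≤ i * dst x z → dst b (P (i + 1) b) ≤ (i + 1) * dst x z := by
        intro a b hab hd
        obtain ⟨hnot, hb⟩ := hkey i (by omega) a b hab hd
        obtain ⟨u, huN, huH⟩ := not_disjoint_iff.1 ((hH _ (hAne i)).2.2.2 b)
        rw [← hAsucc] at huH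
        exact (hPmin (i + 1) b u huH).trans
          ((hNmin (A i) b u huN (P i a) (hPmem i a) hnot).trans hb)
      push_cast
      rcases ih (by omega) with h | h
      · exact Or.inr (hstep' x z (Or.inl ⟨rfl, rfl⟩) h)
      · exact Or.inl (hstep' z x (Or.inr ⟨rfl, rfl⟩) h)
  have hfull : ∀ v, P L v ∈ A L := fun v => hPmem L v
  have htop : ∀ v, N (A L) v = A L := fun v => by
    refine eq_of_subset_of_card_le (hNA _ v) ?_
    rw [hNcard]
    have := hAcard L le_rfl
    simp at this
    omega
  rcases hind L le_rfl with h | h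
  · exact (hkey L le_rfl x z (Or.inl ⟨rfl, rfl⟩) h).1 (by rw [htop]; exact hfull x)
  · exact (hkey L le_rfl z x (Or.inr ⟨rfl, rfl⟩) h).1 (by rw [htop]; exact hfull z)

end Vale.Agent.P249
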