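import Mathlib
import Vale.Agent.P249.Sampling
import Vale.Agent.P249.Spanner

/-!
Coordinate sampling by the sensitivities of the edges of a sparse spanner: every `n` points of
`ℓ_p^m` embed almost isometrically into `ℓ_p^d` with `d = O(n (log n)^(p+3))`.
-/

namespace Vale.Agent.P249

open Finset

/-- Sampling of coordinates, given a bound `π` on the sensitivity of each coordinate. -/
theorem coord_sampling {ι : Type*} [Fintype ι] {n : ℕ} (hn : 2 ≤ n) {p : ℝ} (hp : 1 ≤ p)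
    (x : Fin n → ι → ℝ) (π : ι → ℝ) (hπ : ∀ c, 0 ≤ π c) (hS : 0 < ∑ c, π c)
    (hsens : ∀ i j c, |x i c - x j c| ^ p ≤ π c * ∑ e, |x i e - x j e| ^ p)
    {ε : ℝ} (hε : 0 < ε) (hε1 : ε ≤ 1) {d : ℕ}
    (hd : 13 * Real.log n * (∑ c, π c) / ε ^ 2 ≤ d) :
    ∃ (f : Fin n → Fin d → ℝ) (s : ℝ), 0 < s ∧ ∀ i j,
      (1 - ε) * (s * ∑ c, |x i c - x j c| ^ p) ≤ ∑ b, |f i b - f j b| ^ p ∧
      ∑ b, |f i b - f j b| ^ p ≤ (1 + ε) * (s * ∑ c, |x i c - x j c| ^ p) := by
  classical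
  have hp0 : 0 < p := by linarith
  set S := ∑ c, π c
  set D : Fin n × Fin n → ℝ := fun z => ∑ e, |x z.1 e - x z.2 e| ^ p with hD
  have hD0 : ∀ z, 0 ≤ D z := fun z => sum_nonneg fun e _ => Real.rpow_nonneg (abs_nonneg _) p
  have hPnn : ∀ c, 0 ≤ π c / S := fun c => div_nonneg (hπ c) hS.le
  have hP1 : ∑ c, π c / S = 1 := by rw [← sum_div, div_self hS.ne']
  set Y : Fin n × Fin n → ι → ℝ := fun z c => |x z.1 c - x z.2 c| ^ p / π c / D z with hY
  have hY0 : ∀ z c, 0 ≤ Y z c := fun z c =>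
    div_nonneg (div_nonneg (Real.rpow_nonneg (abs_nonneg _) p) (hπ c)) (hD0 z)
  have hY1 : ∀ z c, Y z c ≤ 1 := fun z c => by
    refine div_le_one_of_le₀ (div_le_of_le_mul₀ (hπ c) (hD0 z) ?_) (hD0 z)
    rw [mul_comm]
    exact hsens z.1 z.2 c
  have hzero : ∀ (i j : Fin n) c, π c = 0 → |x i c - x j c| ^ p = 0 := fun i j c hc => by
    refine le_antisymm ?_ (Real.rpow_nonneg (abs_nonneg _) p)
    have := hsens i j c
    rwa [hc, zero_mul] at this
  have hmean : ∀ z, D z ≠ 0 → ∑ c, π c / S * Y z c = 1 / S := by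
    intro z hz
    have : ∀ c, π c / S * Y z c = |x z.1 c - x z.2 c| ^ p / (S * D z) := by
      intro c
      by_cases hc : π c = 0
      · rw [hc, hzero z.1 z.2 c hc]; simp
      · simp only [hY]; field_simp
    rw [sum_congr rfl fun c _ => this c, ← sum_div]
    show D z / _ = _
    field_simp
  set pairs := (univ : Finset (Fin n × Fin n)).filter (fun z => D z ≠ 0) with hpairs
  obtain ⟨F, hF⟩ := exists_good hPnn hP1 pairs Y hY0 hY1 (n := n) (d := d) hn
    ((card_le_univ _).trans (le_of_eq (by simp))) hε hε1 (fun z hz => by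
      rw [hmean z (mem_filter.1 hz).2]
      rw [div_le_iff₀ (by positivity)] at hd
      have e : (d:ℝ) * (1 / S) * (ε ^ 2 / 4) = d * (ε ^ 2 / 4) / S := by ring
      rw [e, le_div_iff₀ hS]
      linarith)
  have hd0 : (0:ℝ) < d := by
    have hlog : 0 < Real.log n := Real.log_pos (by exact_mod_cast (show 1 < n by omega))
    exact lt_of_lt_of_le (by positivity) hd
  refine ⟨fun i b => x i (F b) / π (F b) ^ (1 / p), d / S, by positivity, fun i j => ?_⟩
  have hterm : ∀ b, |x i (F b) / π (F b) ^ (1 / p) - x j (F b) / π (F b) ^ (1 / p)| ^ p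
      = |x i (F b) - x j (F b)| ^ p / π (F b) := by
    intro b
    rw [← sub_div, abs_div, abs_of_nonneg (Real.rpow_nonneg (hπ _) _),
      Real.div_rpow (abs_nonneg _) (Real.rpow_nonneg (hπ _) _), ← Real.rpow_mul (hπ _),
      one_div_mul_cancel hp0.ne', Real.rpow_one]
  simp only [hterm]
  by_cases hz : D (i, j) = 0
  · have hall : ∀ c, |x i c - x j c| ^ p = 0 := fun c => le_antisymm
      ((single_le_sum (fun e _ => Real.rpow_nonneg (abs_nonneg (x i e - x j e)) p)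
        (mem_univ c)).trans hz.le) (Real.rpow_nonneg (abs_nonneg _) p)
    simp [hall]
  have hb := hF (i, j) (mem_filter.2 ⟨mem_univ _, hz⟩)
  rw [hmean _ hz] at hb
  have hsum : ∑ b, |x i (F b) - x j (F b)| ^ p / π (F b) = D (i, j) * ∑ b, Y (i, j) (F b) := by
    rw [mul_sum]
    refine sum_congr rfl fun b _ => ?_
    simp only [hY]; field_simp
  show (1 - ε) * (d / S * D (i, j)) ≤ _ ∧ _ ≤ (1 + ε) * (d / S * D (i, j))
  rw [hsum]
  constructor
  · calc (1 - ε) * (d / S * D (i, j)) = D (i, j) * ((1 - ε) * (d * (1 / S))) := by ring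
      _ ≤ _ := mul_le_mul_of_nonneg_left hb.1 (hD0 _)
  · calc _ ≤ D (i, j) * ((1 + ε) * (d * (1 / S))) := mul_le_mul_of_nonneg_left hb.2 (hD0 _)
      _ = _ := by ring

/-- Near-linear dimension for arbitrary finite subsets of `ℓ_p^m`. -/
theorem embed_near_linear {p : ℝ} (hp : 1 ≤ p) {D : ℝ} (hD : 1 < D) :
    ∃ C : ℝ, 0 < C ∧ ∀ (ι : Type) [Fintype ι] (n : ℕ), 2 ≤ n → ∀ (x : Fin n → ι → ℝ),
      ∀ d : ℕ, C * n * Real.log n ^ (p + 3) ≤ d →
      ∃ (f : Fin n → Fin d → ℝ) (s : ℝ), 0 < s ∧ ∀ i j,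
        s * ∑ c, |x i c - x j c| ^ p ≤ ∑ b, |f i b - f j b| ^ p ∧
        ∑ b, |f i b - f j b| ^ p ≤ D * s * ∑ c, |x i c - x j c| ^ p := by
  have hp0 : 0 < p := by linarith
  set ε := (D - 1) / (D + 1) with hεdef
  have hε : 0 < ε := div_pos (by linarith) (by linarith)
  have hε1 : ε < 1 := (div_lt_one (by linarith)).2 (by linarith)
  have hεD : 1 + ε = D * (1 - ε) := by rw [hεdef]; field_simp; ring
  set a := 1 / Real.log 2 with ha
  have hlog2 : 0 < Real.log 2 := Real.log_pos one_lt_two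
  have ha0 : 0 < a := by positivity
  refine ⟨13 / ε ^ 2 * (3 * a) * (2 + 3 * a) * (5 * a + 0) ^ p, by positivity, ?_⟩
  intro ι _ n hn x d hd
  classical
  have hnR : (2:ℝ) ≤ n := by exact_mod_cast hn
  set ℓ := Real.log n with hℓdef
  have hℓ2 : Real.log 2 ≤ ℓ := Real.log_le_log two_pos hnR
  have hℓ : 0 < ℓ := lt_of_lt_of_le hlog2 hℓ2
  have hone : 1 ≤ a * ℓ := by rw [ha, one_div_mul_eq_div, one_le_div hlog2]; exact hℓ2
  obtain ⟨q, hq⟩ : ∃ q : ℕ, q = ⌊2 * ℓ⌋₊ + 1 := ⟨_, rfl⟩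
  obtain ⟨L, hLdef⟩ : ∃ L : ℕ, L = Nat.log 2 n + 1 := ⟨_, rfl⟩
  have hqlt : 2 * ℓ < q := by rw [hq]; push_cast; exact Nat.lt_floor_add_one _
  have hqle : (q:ℝ) + 1 ≤ (2 + 3 * a) * ℓ := by
    have h := Nat.floor_le (by positivity : 0 ≤ 2 * ℓ)
    rw [hq]; push_cast; linarith
  have hLn : n ≤ 2 ^ L := by rw [hLdef]; exact (Nat.lt_pow_succ_log_self one_lt_two n).le
  have hLle : (L:ℝ) ≤ 2 * a * ℓ := by
    have h1 : ((2:ℝ)) ^ Nat.log 2 n ≤ n := by exact_mod_cast Nat.pow_log_le_self 2 (by omega)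
    have h2 := Real.log_le_log (by positivity) h1
    rw [Real.log_pow] at h2
    have h3 : (Nat.log 2 n : ℝ) ≤ a * ℓ := by
      rw [ha, one_div_mul_eq_div, le_div_iff₀ hlog2]; exact h2
    rw [hLdef]; push_cast; linarith
  set dst : Fin n → Fin n → ℝ := fun i j => (∑ c, |x i c - x j c| ^ p) ^ (1 / p) with hdst
  have hdp : ∀ i j, dst i j ^ p = ∑ c, |x i c - x j c| ^ p := fun i j => by
    rw [hdst]
    simp only
    rw [← Real.rpow_mul (sum_nonneg fun c _ => Real.rpow_nonneg (abs_nonneg _) p),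
      one_div_mul_cancel hp0.ne', Real.rpow_one]
  obtain ⟨Ed, hEd, hpath⟩ := exists_spanner dst
    (fun i j => Real.rpow_nonneg (sum_nonneg fun c _ => Real.rpow_nonneg (abs_nonneg _) p) _)
    (fun i => by simp [hdst, Real.zero_rpow hp0.ne', hp0.ne'])
    (fun i j => by simp only [hdst, abs_sub_comm])
    (fun i j k => by
      simp only [hdst]
      have h := Real.Lp_add_le univ (fun c => x i c - x j c) (fun c => x j c - x k c) hp
      simpa using h)
    q L (by rwa [Fintype.card_fin]) (by omega) (by rwa [Fintype.card_fin])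
  set sens : ι → ℝ := fun c =>
    ∑ e ∈ Ed, |x e.1 c - x e.2 c| ^ p / dst e.1 e.2 ^ p with hsensdef
  set π : ι → ℝ := fun c => (2 * (L:ℝ) + 1) ^ p * sens c with hπdef
  have hdn : ∀ i j, 0 ≤ dst i j := fun i j =>
    Real.rpow_nonneg (sum_nonneg fun c _ => Real.rpow_nonneg (abs_nonneg _) p) _
  have hsens0 : ∀ c, 0 ≤ sens c := fun c => sum_nonneg fun e _ =>
    div_nonneg (Real.rpow_nonneg (abs_nonneg _) p) (Real.rpow_nonneg (hdn _ _) p)
  have hedge : ∀ e ∈ Ed, ∀ c, |x e.1 c - x e.2 c| ≤ sens c ^ (1 / p) * dst e.1 e.2 := by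
    intro e he c
    have hle : |x e.1 c - x e.2 c| ^ p ≤ (sens c ^ (1 / p) * dst e.1 e.2) ^ p := by
      rw [Real.mul_rpow (Real.rpow_nonneg (hsens0 c) _) (hdn _ _), ← Real.rpow_mul (hsens0 c),
        one_div_mul_cancel hp0.ne', Real.rpow_one]
      rcases (Real.rpow_nonneg (hdn e.1 e.2) p).eq_or_lt' with h | h
      · have h' := h
        rw [hdp] at h'
        rw [h, mul_zero]
        exact (single_le_sum (fun e' _ => Real.rpow_nonneg (abs_nonneg (x e.1 e' - x e.2 e')) p)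
          (mem_univ c)).trans h'.le
      · rw [← div_le_iff₀ h]
        exact single_le_sum (f := fun e' => |x e'.1 c - x e'.2 c| ^ p / dst e'.1 e'.2 ^ p)
          (fun e' _ => div_nonneg (Real.rpow_nonneg (abs_nonneg _) p)
            (Real.rpow_nonneg (hdn _ _) p)) he
    exact (Real.rpow_le_rpow_iff (abs_nonneg _)
      (mul_nonneg (Real.rpow_nonneg (hsens0 c) _) (hdn _ _)) hp0).1 hle
  have hπsens : ∀ i j c, |x i c - x j c| ^ p ≤ π c * ∑ e, |x i e - x j e| ^ p := by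
    intro i j c
    obtain ⟨w, h1, h2, h3⟩ := hpath i j
    have hle : |x i c - x j c| ≤ sens c ^ (1 / p) * ((2 * L + 1) * dst i j) := by
      calc |x i c - x j c| ≤ |x i c - x w c| + |x j c - x w c| := by
            rw [abs_sub_comm (x j c)]; exact abs_sub_le _ _ _
        _ ≤ sens c ^ (1 / p) * dst i w + sens c ^ (1 / p) * dst j w :=
            add_le_add (hedge _ h1 c) (hedge _ h2 c)
        _ ≤ _ := by
            rw [← mul_add]
            exact mul_le_mul_of_nonneg_left h3 (Real.rpow_nonneg (hsens0 c) _)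
    refine (Real.rpow_le_rpow (abs_nonneg _) hle hp0.le).trans (le_of_eq ?_)
    rw [Real.mul_rpow (Real.rpow_nonneg (hsens0 c) _) (mul_nonneg (by positivity) (hdn i j)),
      Real.mul_rpow (by positivity) (hdn i j), ← Real.rpow_mul (hsens0 c),
      one_div_mul_cancel hp0.ne', Real.rpow_one, hdp]
    simp only [hπdef]; ring
  have hsum : ∑ c, π c ≤ (5 * a * ℓ) ^ p * (n * (3 * a * ℓ) * ((2 + 3 * a) * ℓ)) := by
    rw [← mul_sum]
    refine mul_le_mul (Real.rpow_le_rpow (by positivity) (by linarith) hp0.le) ?_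
      (sum_nonneg fun c _ => hsens0 c) (by positivity)
    rw [sum_comm]
    calc ∑ e ∈ Ed, ∑ c, |x e.1 c - x e.2 c| ^ p / dst e.1 e.2 ^ p ≤ ∑ _e ∈ Ed, (1:ℝ) := by
          refine sum_le_sum fun e _ => ?_
          rw [← sum_div, hdp]
          exact div_self_le_one _
      _ = (Ed.card : ℝ) := by simp
      _ ≤ (n:ℝ) * ((L:ℝ) + 1) * ((q:ℝ) + 1) := by
          rw [Fintype.card_fin] at hEd
          exact_mod_cast hEd
      _ ≤ _ := by gcongr; linarith
  have hπ0 : ∀ c, 0 ≤ π c := fun c => mul_nonneg (by positivity) (hsens0 c)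
  rcases (sum_nonneg fun c _ => hπ0 c).eq_or_lt' with hzero | hpos
  · -- all points coincide
    refine ⟨fun _ _ => 0, 1, one_pos, fun i j => ?_⟩
    have : ∀ c, |x i c - x j c| ^ p = 0 := fun c => by
      refine le_antisymm ((hπsens i j c).trans (le_of_eq ?_)) (Real.rpow_nonneg (abs_nonneg _) p)
      rw [(sum_eq_zero_iff_of_nonneg fun c _ => hπ0 c).1 hzero c (mem_univ c), zero_mul]
    simp [this, Real.zero_rpow hp0.ne']
  obtain ⟨f, s, hs, hf⟩ := coord_sampling hn hp x π hπ0 hpos hπsens hε hε1.le (d := d) (by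
    refine le_trans ?_ hd
    calc 13 * ℓ * (∑ c, π c) / ε ^ 2
        ≤ 13 * ℓ * ((5 * a * ℓ) ^ p * (n * (3 * a * ℓ) * ((2 + 3 * a) * ℓ))) / ε ^ 2 := by
          gcongr
      _ = _ := by
          rw [Real.mul_rpow (by positivity) hℓ.le,
            show p + 3 = p + ((3:ℕ) : ℝ) by norm_num, Real.rpow_add_natCast hℓ.ne', add_zero]
          ring)
  refine ⟨f, (1 - ε) * s, mul_pos (by linarith) hs, fun i j => ⟨?_, ?_⟩⟩
  · exact le_trans (le_of_eq (by ring)) (hf i j).1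
  · refine (hf i j).2.trans (le_of_eq ?_)
    rw [hεD]; ring

end Vale.Agent.P249
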