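import Mathlib

/-!
Random partitions of a finite pseudometric into pieces of bounded radius
(Calinescu–Karloff–Rabani), with the cutting probability in terms of local growth,
and averaging of the growth over consecutive dyadic scales.
-/

namespace Vale.Agent.P249

open Finset

variable {V : Type*} [Fintype V] [DecidableEq V]

/-- The members of a closed ball. -/
noncomputable def cball (dst : V → V → ℝ) (x : V) (r : ℝ) : Finset V :=
  univ.filter fun u => dst x u ≤ r

/-- `u` comes first in `S` in the order `π`. -/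
def IsFirst {n : ℕ} (e : V ≃ Fin n) (π : Equiv.Perm V) (S : Finset V) (u : V) : Prop :=
  u ∈ S ∧ ∀ w ∈ S, e (π u) ≤ e (π w)

omit [Fintype V] [DecidableEq V] in
lemma exists_first {n : ℕ} (e : V ≃ Fin n) (π : Equiv.Perm V) {S : Finset V} (hS : S.Nonempty) :
    ∃ u, IsFirst e π S u := by
  obtain ⟨u, hu, h⟩ := exists_min_image S (fun w => e (π w)) hS
  exact ⟨u, hu, h⟩

omit [Fintype V] [DecidableEq V] in
lemma isFirst_unique {n : ℕ} (e : V ≃ Fin n) (π : Equiv.Perm V) {S : Finset V} {u v : V}
    (hu : IsFirst e π S u) (hv : IsFirst e π S v) : u = v :=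
  π.injective (e.injective (le_antisymm (hu.2 v hv.1) (hv.2 u hu.1)))

/-- Each member of `S` is first in the same number of orders. -/
lemma card_first {n : ℕ} (e : V ≃ Fin n) {S : Finset V} {u : V} (hu : u ∈ S)
    [∀ π : Equiv.Perm V, ∀ w, Decidable (IsFirst e π S w)] :
    S.card * (univ.filter fun π : Equiv.Perm V => IsFirst e π S u).card
      = Fintype.card (Equiv.Perm V) := by
  classical
  have hsame : ∀ w ∈ S, (univ.filter fun π : Equiv.Perm V => IsFirst e π S w).card
      = (univ.filter fun π : Equiv.Perm V => IsFirst e π S u).card := by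
    intro w hw
    refine card_bij' (fun π _ => π * Equiv.swap u w) (fun π _ => π * Equiv.swap u w)
      ?_ ?_ ?_ ?_
    · intro π hπ
      simp only [mem_filter, mem_univ, true_and] at hπ ⊢
      refine ⟨hu, fun z hz => ?_⟩
      simp only [Equiv.Perm.mul_apply, Equiv.swap_apply_left]
      refine hπ.2 _ ?_
      rw [Equiv.swap_apply_def]; split_ifs <;> assumption
    · intro π hπ
      simp only [mem_filter, mem_univ, true_and] at hπ ⊢
      refine ⟨hw, fun z hz => ?_⟩
      simp only [Equiv.Perm.mul_apply, Equiv.swap_apply_right]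
      refine hπ.2 _ ?_
      rw [Equiv.swap_apply_def]; split_ifs <;> assumption
    · intro π _; simp [mul_assoc]
    · intro π _; simp [mul_assoc]
  calc S.card * (univ.filter fun π : Equiv.Perm V => IsFirst e π S u).card
      = ∑ w ∈ S, (univ.filter fun π : Equiv.Perm V => IsFirst e π S w).card := by
        rw [sum_congr rfl hsame, sum_const, smul_eq_mul]
    _ = (S.biUnion fun w => univ.filter fun π : Equiv.Perm V => IsFirst e π S w).card := by
        rw [card_biUnion]
        intro a _ b _ hab
        rw [Function.onFun, disjoint_left]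
        intro π h1 h2
        exact hab (isFirst_unique e π (mem_filter.1 h1).2 (mem_filter.1 h2).2)
    _ = Fintype.card (Equiv.Perm V) := by
        rw [← card_univ]; congr 1
        ext π
        simp only [mem_biUnion, mem_filter, mem_univ, true_and, iff_true]
        obtain ⟨w, hw⟩ := exists_first e π (S := S) ⟨u, hu⟩
        exact ⟨w, hw.1, hw⟩

omit [DecidableEq V] in
/-- Harmonic sum over an annulus, counted by the balls reaching its members. -/
lemma annulus_sum (dst : V → V → ℝ) (x : V) (s : ℝ) (hx : (cball dst x s).Nonempty)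
    (A : Finset V) (hA : ∀ v, dst x v ≤ s → v ∈ A) :
    ∑ u ∈ A with s < dst x u, (1 : ℝ) / (cball dst x (dst x u)).card
      ≤ Real.log A.card - Real.log (cball dst x s).card := by
  classical
  have hBpos : (0:ℝ) < (cball dst x s).card := by exact_mod_cast hx.card_pos
  suffices H : ∀ C : Finset V, C ⊆ A → (∀ v, dst x v ≤ s → v ∈ C) →
      ∑ u ∈ C with s < dst x u, (1 : ℝ) / (cball dst x (dst x u)).card
        ≤ Real.log C.card - Real.log (cball dst x s).card from H A Subset.rfl hA
  intro C
  induction C using Finset.strongInduction with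
  | H C ih =>
    intro hCA hC
    rcases (C.filter fun u => s < dst x u).eq_empty_or_nonempty with h | h
    · rw [h, sum_empty, sub_nonneg]
      refine Real.log_le_log hBpos (Nat.cast_le.2 (card_le_card fun v hv => hC v ?_))
      exact (mem_filter.1 hv).2
    obtain ⟨u, hu, hmax⟩ := exists_max_image _ (fun v => dst x v) h
    rw [mem_filter] at hu
    have hcard : C.card ≤ (cball dst x (dst x u)).card := by
      refine card_le_card fun v hv => mem_filter.2 ⟨mem_univ v, ?_⟩
      rcases lt_or_ge s (dst x v) with hv' | hv'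
      · exact hmax v (mem_filter.2 ⟨hv, hv'⟩)
      · linarith [hu.2]
    have ih' := ih (C.erase u) (erase_ssubset hu.1) ((erase_subset u C).trans hCA)
      (fun v hv => mem_erase.2 ⟨fun e => by subst e; linarith [hu.2], hC v hv⟩)
    have hC1 : 1 < C.card := by
      obtain ⟨v, hv⟩ := hx
      have hv' := (mem_filter.1 hv).2
      exact one_lt_card.2 ⟨u, hu.1, v, hC v hv',
        fun e => by subst e; linarith [hu.2]⟩
    have hC1' : (1:ℝ) < C.card := by exact_mod_cast hC1
    rw [← insert_erase hu.1, filter_insert, if_pos hu.2, sum_insert (by simp),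
      insert_erase hu.1]
    have hlog : (1:ℝ) / C.card ≤ Real.log C.card - Real.log ((C.erase u).card) := by
      rw [card_erase_of_mem hu.1, Nat.cast_sub (by omega), Nat.cast_one,
        ← Real.log_div (by linarith) (by linarith)]
      have := Real.one_sub_inv_le_log_of_pos
        (show (0:ℝ) < (C.card : ℝ) / ((C.card : ℝ) - 1) from
          div_pos (by linarith) (by linarith))
      refine le_trans (le_of_eq ?_) this
      have h1 : (C.card : ℝ) - 1 ≠ 0 := by linarith
      field_simp
      ring
    have : (1:ℝ) / (cball dst x (dst x u)).card ≤ 1 / C.card :=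
      one_div_le_one_div_of_le (by linarith) (by exact_mod_cast hcard)
    linarith

/-- A finite family of random partitions of radius `R`: the probability that the `t`-ball at `x`
is cut is at most `(4 t / R + 1 / M) (1 + log (|B(x, 2 R)| / |B(x, R / 4)|))`. -/
theorem exists_partition (dst : V → V → ℝ)
    (hself : ∀ u, dst u u = 0) (hsymm : ∀ u v, dst u v = dst v u)
    (htri : ∀ u v w, dst u w ≤ dst u v + dst v w) {R : ℝ} (hR : 0 < R) (M : ℕ) (hM : 1 ≤ M) :
    ∃ c : Equiv.Perm V × Fin M → V → V,
      (∀ ω v, dst v (c ω v) ≤ R) ∧ (∀ ω u v, dst u v = 0 → c ω u = c ω v) ∧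
      ∀ (x : V) (t : ℝ), 0 ≤ t →
        ((Finset.univ.filter fun ω => ∃ z, dst x z ≤ t ∧ c ω z ≠ c ω x).card : ℝ)
          ≤ (4 * t / R + 1 / M) * (1 + (Real.log (cball dst x (2 * R)).card
              - Real.log (cball dst x (R / 4)).card))
            * Fintype.card (Equiv.Perm V × Fin M) := by
  classical
  set e := Fintype.equivFin V
  set h := R / (2 * M) with hh
  have hMr : (1:ℝ) ≤ M := by exact_mod_cast hM
  have hh0 : 0 < h := by positivity
  set rad : Fin M → ℝ := fun k => R / 2 + h * k with hrad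
  have hrlo : ∀ k, R / 2 ≤ rad k := fun k => le_add_of_nonneg_right (by positivity)
  have hrhi : ∀ k, rad k ≤ R := by
    intro k
    have : (k:ℝ) ≤ M := by exact_mod_cast k.2.le
    calc rad k ≤ R / 2 + h * M := by simp only [hrad]; gcongr
      _ = R := by rw [hh]; field_simp; ring
  have hne : ∀ (ω : Equiv.Perm V × Fin M) v, (cball dst v (rad ω.2)).Nonempty := fun ω v =>
    ⟨v, mem_filter.2 ⟨mem_univ v, by rw [hself]; linarith [hrlo ω.2]⟩⟩
  choose c hc using fun (ω : Equiv.Perm V × Fin M) v => exists_first e ω.1 (hne ω v)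
  refine ⟨c, fun ω v => le_trans (mem_filter.1 (hc ω v).1).2 (hrhi ω.2), ?_, ?_⟩
  · intro ω u v huv
    have hB : cball dst u (rad ω.2) = cball dst v (rad ω.2) := by
      ext w
      simp only [cball, mem_filter, mem_univ, true_and]
      constructor <;> intro hw
      · have := htri v u w; rw [hsymm v u] at this; linarith
      · have := htri u v w; linarith
    have h' := hc ω v
    rw [← hB] at h'
    exact isFirst_unique e ω.1 (hc ω u) h'
  intro x t ht
  set g := Real.log (cball dst x (2 * R)).card - Real.log (cball dst x (R / 4)).card with hg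
  have hBne : (cball dst x (R / 4)).Nonempty :=
    ⟨x, mem_filter.2 ⟨mem_univ x, by rw [hself]; linarith⟩⟩
  have hg0 : 0 ≤ g := by
    rw [hg, sub_nonneg]
    refine Real.log_le_log (by exact_mod_cast hBne.card_pos) (Nat.cast_le.2 (card_le_card ?_))
    intro v hv
    simp only [cball, mem_filter, mem_univ, true_and] at hv ⊢
    linarith
  set P := Fintype.card (Equiv.Perm V) with hP
  rcases lt_or_ge (R / 4) t with hbig | hsmall
  · have h1 : ((Finset.univ.filter fun ω => ∃ z, dst x z ≤ t ∧ c ω z ≠ c ω x).card : ℝ)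
        ≤ Fintype.card (Equiv.Perm V × Fin M) := by
      exact_mod_cast card_le_univ _
    refine h1.trans (le_mul_of_one_le_left (Nat.cast_nonneg _) ?_)
    have h2 : 1 ≤ 4 * t / R := by rw [le_div_iff₀ hR]; linarith
    have h3 : 0 ≤ 1 / (M:ℝ) := by positivity
    nlinarith
  -- the centre that settles the ball
  set A := (cball dst x (2 * R)).filter fun u => R / 4 < dst x u with hA
  set Hit : V → Finset (Equiv.Perm V × Fin M) := fun u =>
    (univ.filter fun π => IsFirst e π (cball dst x (dst x u)) u) ×ˢ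
      (univ.filter fun k => dst x u - t ≤ rad k ∧ rad k < dst x u + t) with hHit
  have hcover : (Finset.univ.filter fun ω => ∃ z, dst x z ≤ t ∧ c ω z ≠ c ω x)
      ⊆ A.biUnion Hit := by
    intro ω hω
    obtain ⟨z, hz, hne'⟩ := (mem_filter.1 hω).2
    obtain ⟨u, hu⟩ := exists_first e ω.1 (S := cball dst x (rad ω.2 + t))
      ⟨x, mem_filter.2 ⟨mem_univ x, by rw [hself]; linarith [hrlo ω.2]⟩⟩
    have hux : dst x u ≤ rad ω.2 + t := (mem_filter.1 hu.1).2
    -- a centre within `rad - t` would take the whole ball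
    have hsettle : dst x u ≤ rad ω.2 - t → ∀ w, dst x w ≤ t → c ω w = u := by
      intro hin w hw
      refine isFirst_unique e ω.1 (hc ω w) ⟨mem_filter.2 ⟨mem_univ u, ?_⟩, fun v hv => ?_⟩
      · have := htri w x u; rw [hsymm w x] at this; linarith
      · refine hu.2 v (mem_filter.2 ⟨mem_univ v, ?_⟩)
        have := htri x w v
        linarith [(mem_filter.1 hv).2]
    have hout : rad ω.2 - t < dst x u := by
      by_contra hin
      push Not at hin
      exact hne' ((hsettle hin z hz).trans (hsettle hin x (by rw [hself]; exact ht)).symm)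
    have hedge : rad ω.2 < dst x u + t := by linarith
    refine mem_biUnion.2 ⟨u, mem_filter.2 ⟨mem_filter.2 ⟨mem_univ u, ?_⟩, ?_⟩, ?_⟩
    · linarith [hrhi ω.2]
    · linarith [hrlo ω.2]
    · refine mem_product.2 ⟨mem_filter.2 ⟨mem_univ _, ?_, fun w hw => ?_⟩,
        mem_filter.2 ⟨mem_univ _, by linarith, hedge⟩⟩
      · exact mem_filter.2 ⟨mem_univ u, le_rfl⟩
      · exact hu.2 w (mem_filter.2 ⟨mem_univ w, (mem_filter.1 hw).2.trans hux⟩)
  have hk : ∀ u, ((univ.filter fun k : Fin M => dst x u - t ≤ rad k ∧ rad k < dst x u + t).card : ℝ)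
      ≤ (4 * t / R + 1 / M) * M := by
    intro u
    set K := univ.filter fun k : Fin M => dst x u - t ≤ rad k ∧ rad k < dst x u + t
    rcases K.eq_empty_or_nonempty with hK | hK
    · rw [hK]; simp; positivity
    obtain ⟨k₀, hk₀, hmin⟩ := exists_min_image K (fun k => (k : ℕ)) hK
    have hle : K.card ≤ ⌊2 * t / h⌋₊ + 1 := by
      have : K.card ≤ (Finset.Icc (k₀ : ℕ) (k₀ + ⌊2 * t / h⌋₊)).card := by
        refine card_le_card_of_injOn (fun k => (k : ℕ)) (fun k hk' => ?_)
          (fun a _ b _ hab => Fin.ext hab)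
        have hk'' : k ∈ K := hk'
        rw [mem_coe, mem_Icc]
        refine ⟨hmin k hk'', ?_⟩
        show (k : ℕ) ≤ _
        have h1 := (mem_filter.1 hk'').2.2
        have h2 := (mem_filter.1 hk₀).2.1
        simp only [hrad] at h1 h2
        have h3 : ((k:ℕ):ℝ) - (k₀:ℕ) ≤ 2 * t / h := by rw [le_div_iff₀ hh0]; linarith
        have h4 : (k:ℕ) - (k₀:ℕ) ≤ ⌊2 * t / h⌋₊ := by
          refine Nat.le_floor ?_
          rw [Nat.cast_sub (hmin k hk'')]; exact h3
        have h5 : (k₀:ℕ) ≤ (k:ℕ) := hmin k hk''
        omega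
      rw [Nat.card_Icc] at this
      omega
    calc (K.card : ℝ) ≤ (⌊2 * t / h⌋₊ : ℝ) + 1 := by exact_mod_cast hle
      _ ≤ 2 * t / h + 1 := by gcongr; exact Nat.floor_le (by positivity)
      _ = _ := by rw [hh]; field_simp; ring
  have hcount : ((Finset.univ.filter fun ω => ∃ z, dst x z ≤ t ∧ c ω z ≠ c ω x).card : ℝ)
      ≤ ∑ u ∈ A, (P : ℝ) / (cball dst x (dst x u)).card * ((4 * t / R + 1 / M) * M) := by
    have h1 := (card_le_card hcover).trans card_biUnion_le
    refine (Nat.cast_le.2 h1).trans ?_
    rw [Nat.cast_sum]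
    refine sum_le_sum fun u _ => ?_
    simp only [hHit, card_product, Nat.cast_mul]
    have hu' : u ∈ cball dst x (dst x u) := mem_filter.2 ⟨mem_univ u, le_rfl⟩
    refine mul_le_mul (le_of_eq ?_) (hk u) (Nat.cast_nonneg _) (by positivity)
    rw [eq_div_iff (Nat.cast_ne_zero.2 (card_ne_zero_of_mem hu'))]
    have := card_first e hu'
    rw [mul_comm]
    exact_mod_cast this
  refine hcount.trans ?_
  rw [← sum_mul]
  have hann : ∑ u ∈ A, (1:ℝ) / (cball dst x (dst x u)).card ≤ g := by
    exact annulus_sum dst x (R / 4) hBne (cball dst x (2 * R))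
      fun v hv => mem_filter.2 ⟨mem_univ v, by linarith⟩
  have hs : ∑ u ∈ A, (P : ℝ) / (cball dst x (dst x u)).card ≤ P * (1 + g) := by
    calc ∑ u ∈ A, (P : ℝ) / (cball dst x (dst x u)).card
        = P * ∑ u ∈ A, (1:ℝ) / (cball dst x (dst x u)).card := by
          rw [mul_sum]; exact sum_congr rfl fun u _ => by ring
      _ ≤ _ := mul_le_mul_of_nonneg_left (by linarith) (Nat.cast_nonneg _)
  refine (mul_le_mul_of_nonneg_right hs (by positivity)).trans (le_of_eq ?_)
  rw [Fintype.card_prod, Fintype.card_fin]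
  push_cast
  ring

omit [DecidableEq V] in
/-- The growth telescopes over consecutive dyadic scales. -/
lemma sum_growth (dst : V → V → ℝ) (x : V) (hx : dst x x = 0) {R₀ : ℝ} (hR₀ : 0 < R₀) (J : ℕ) :
    ∑ l ∈ range J, (Real.log (cball dst x (2 * (R₀ * 2 ^ l))).card
        - Real.log (cball dst x (R₀ * 2 ^ l / 4)).card)
      ≤ 3 * Real.log (Fintype.card V) := by
  set b : ℕ → ℝ := fun l => Real.log (cball dst x (R₀ * 2 ^ l / 4)).card with hb
  have hpos : ∀ l : ℕ, 0 < (cball dst x (R₀ * 2 ^ l / 4)).card := fun l =>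
    card_pos.2 ⟨x, mem_filter.2 ⟨mem_univ x, by rw [hx]; positivity⟩⟩
  have hb0 : ∀ l, 0 ≤ b l ∧ b l ≤ Real.log (Fintype.card V) := fun l =>
    ⟨Real.log_nonneg (by exact_mod_cast hpos l),
      Real.log_le_log (by exact_mod_cast hpos l) (by exact_mod_cast card_le_univ _)⟩
  have e : ∀ l, Real.log (cball dst x (2 * (R₀ * 2 ^ l))).card = b (l + 3) := fun l => by
    simp only [hb]
    congr 4
    ring
  calc _ = ∑ l ∈ range J, ((b (l + 3) - b (l + 2)) + (b (l + 2) - b (l + 1))
        + (b (l + 1) - b l)) := sum_congr rfl fun l _ => by rw [e]; ring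
    _ = (b (J + 2) - b 2) + (b (J + 1) - b 1) + (b J - b 0) := by
        simp only [sum_add_distrib]
        rw [sum_range_sub (fun l => b (l + 2)), sum_range_sub (fun l => b (l + 1)),
          sum_range_sub b]
    _ ≤ _ := by
        linarith [hb0 (J + 2), hb0 2, hb0 (J + 1), hb0 1, hb0 J, hb0 0]

end Vale.Agent.P249
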