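import Mathlib

/-!
Basic facts about the `ℓ_p` norm of a finitely indexed real vector, and the coordinatewise
contraction of all gaps made by a prescribed list of pairs of points.
-/

namespace Vale.Agent.P249

open Finset

/-- The `ℓ_p` norm of a vector. -/
noncomputable def nrm {κ : Type*} [Fintype κ] (p : ℝ) (v : κ → ℝ) : ℝ :=
  (∑ c, |v c| ^ p) ^ (1 / p)

section

variable {κ : Type*} [Fintype κ] {p : ℝ}

lemma sum_abs_rpow_nonneg (v : κ → ℝ) (p : ℝ) : 0 ≤ ∑ c, |v c| ^ p :=
  sum_nonneg fun c _ => Real.rpow_nonneg (abs_nonneg _) p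

lemma nrm_nonneg (v : κ → ℝ) : 0 ≤ nrm p v :=
  Real.rpow_nonneg (sum_abs_rpow_nonneg v p) _

lemma nrm_rpow (hp : 1 ≤ p) (v : κ → ℝ) : nrm p v ^ p = ∑ c, |v c| ^ p := by
  unfold nrm
  rw [← Real.rpow_mul (sum_abs_rpow_nonneg v p), one_div_mul_cancel (by linarith), Real.rpow_one]

lemma nrm_mono (hp : 1 ≤ p) {v w : κ → ℝ} (h : ∀ c, |v c| ≤ |w c|) : nrm p v ≤ nrm p w :=
  Real.rpow_le_rpow (sum_abs_rpow_nonneg v p)
    (sum_le_sum fun c _ => Real.rpow_le_rpow (abs_nonneg _) (h c) (by linarith)) (by positivity)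

lemma nrm_add (hp : 1 ≤ p) (v w : κ → ℝ) :
    nrm p (fun c => v c + w c) ≤ nrm p v + nrm p w :=
  Real.Lp_add_le univ v w hp

lemma nrm_zero (hp : 1 ≤ p) : nrm p (fun _ : κ => (0:ℝ)) = 0 := by
  have : p ≠ 0 := by linarith
  simp [nrm, Real.zero_rpow this, this]

lemma nrm_neg (v : κ → ℝ) : nrm p (fun c => -v c) = nrm p v := by simp [nrm]

lemma nrm_sub_comm (v w : κ → ℝ) : nrm p (fun c => v c - w c) = nrm p (fun c => w c - v c) := by
  simp [nrm, abs_sub_comm]

lemma nrm_smul (hp : 1 ≤ p) {a : ℝ} (ha : 0 ≤ a) (v : κ → ℝ) :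
    nrm p (fun c => a * v c) = a * nrm p v := by
  unfold nrm
  simp only [abs_mul, abs_of_nonneg ha, Real.mul_rpow ha (abs_nonneg _), ← mul_sum]
  rw [Real.mul_rpow (Real.rpow_nonneg ha p) (sum_abs_rpow_nonneg v p), ← Real.rpow_mul ha,
    mul_one_div_cancel (by linarith), Real.rpow_one]

lemma nrm_triangle (hp : 1 ≤ p) (u v w : κ → ℝ) :
    nrm p (fun c => u c - w c) ≤ nrm p (fun c => u c - v c) + nrm p (fun c => v c - w c) := by
  have := nrm_add hp (fun c => u c - v c) (fun c => v c - w c)
  simpa using this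

lemma nrm_sub_le (hp : 1 ≤ p) (v w : κ → ℝ) :
    nrm p (fun c => v c - w c) ≤ nrm p v + nrm p w := by
  have := nrm_add hp v (fun c => -w c)
  rw [nrm_neg] at this
  simpa [sub_eq_add_neg] using this

lemma nrm_sum (hp : 1 ≤ p) {α : Type*} (s : Finset α) (v : α → κ → ℝ) :
    nrm p (fun c => ∑ a ∈ s, v a c) ≤ ∑ a ∈ s, nrm p (v a) := by
  classical
  induction s using Finset.induction with
  | empty => simp [nrm_zero hp]
  | insert a s ha ih =>
    simp only [sum_insert ha]
    exact (nrm_add hp _ _).trans (by linarith)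

lemma nrm_eq_zero (hp : 1 ≤ p) {v : κ → ℝ} (h : nrm p v = 0) (c : κ) : v c = 0 := by
  have h1 : ∑ e, |v e| ^ p = 0 := by rw [← nrm_rpow hp, h, Real.zero_rpow (by linarith)]
  have h2 := (sum_eq_zero_iff_of_nonneg fun e _ => Real.rpow_nonneg (abs_nonneg (v e)) p).1 h1 c
    (mem_univ c)
  exact abs_eq_zero.1 (((Real.rpow_eq_zero_iff_of_nonneg (abs_nonneg _)).1 h2).1)

end

/-- Collapse the interval between `u` and `v`. -/
noncomputable def squeeze (u v a : ℝ) : ℝ := min a (min u v) + max (a - max u v) 0

lemma squeeze_left (u v : ℝ) : squeeze u v u = squeeze u v v := by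
  unfold squeeze
  rw [min_eq_right (min_le_left u v), min_eq_right (min_le_right u v),
    max_eq_right (by linarith [le_max_left u v] : u - max u v ≤ 0),
    max_eq_right (by linarith [le_max_right u v] : v - max u v ≤ 0)]

lemma squeeze_dist (u v a b : ℝ) :
    |squeeze u v a - squeeze u v b| ≤ |a - b| ∧
      |a - b| ≤ |squeeze u v a - squeeze u v b| + |u - v| := by
  have hgap : max u v - min u v = |u - v| := max_sub_min_eq_abs' u v
  have key : ∀ a b : ℝ, a ≤ b → 0 ≤ squeeze u v b - squeeze u v a ∧
      squeeze u v b - squeeze u v a ≤ b - a ∧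
      b - a ≤ squeeze u v b - squeeze u v a + |u - v| := by
    intro a b hab
    have hmm : min u v ≤ max u v := min_le_max
    unfold squeeze
    rw [← hgap]
    rcases le_total a (min u v) with h1 | h1 <;> rcases le_total b (min u v) with h2 | h2 <;>
      rcases le_total (a - max u v) 0 with h3 | h3 <;>
      rcases le_total (b - max u v) 0 with h4 | h4 <;>
      simp only [min_eq_left, min_eq_right, max_eq_left, max_eq_right, h1, h2, h3, h4] <;>
      refine ⟨?_, ?_, ?_⟩ <;> linarith
  rcases le_total a b with h | h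
  · obtain ⟨h0, h1, h2⟩ := key a b h
    rw [abs_sub_comm, abs_of_nonneg h0, abs_sub_comm a, abs_of_nonneg (by linarith : 0 ≤ b - a)]
    exact ⟨h1, h2⟩
  · obtain ⟨h0, h1, h2⟩ := key b a h
    rw [abs_of_nonneg h0, abs_of_nonneg (by linarith : 0 ≤ a - b)]
    exact ⟨h1, h2⟩

/-- Collapse, coordinatewise, the gaps between the listed pairs of points. -/
noncomputable def contract {n : ℕ} {κ : Type*} (x : Fin n → κ → ℝ) :
    List (Fin n × Fin n) → Fin n → κ → ℝ
  | [] => x
  | e :: es => fun i c =>
      squeeze (contract x es e.1 c) (contract x es e.2 c) (contract x es i c)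

lemma contract_le {n : ℕ} {κ : Type*} (x : Fin n → κ → ℝ) :
    ∀ (es : List (Fin n × Fin n)) (i j : Fin n) (c : κ),
      |contract x es i c - contract x es j c| ≤ |x i c - x j c|
  | [], _, _, _ => le_rfl
  | _ :: es, i, j, c => ((squeeze_dist _ _ _ _).1).trans (contract_le x es i j c)

lemma contract_eq {n : ℕ} {κ : Type*} (x : Fin n → κ → ℝ) :
    ∀ (es : List (Fin n × Fin n)) (e : Fin n × Fin n), e ∈ es →
      ∀ c, contract x es e.1 c = contract x es e.2 c
  | [], e, he, _ => absurd he List.not_mem_nil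
  | e' :: es, e, he, c => by
      rcases List.mem_cons.1 he with rfl | he
      · exact squeeze_left _ _
      · simp only [contract, contract_eq x es e he c]

lemma contract_loss {n : ℕ} {κ : Type*} [Fintype κ] {p : ℝ} (hp : 1 ≤ p) (x : Fin n → κ → ℝ)
    {θ : ℝ} : ∀ (es : List (Fin n × Fin n)),
      (∀ e ∈ es, nrm p (fun c => x e.1 c - x e.2 c) ≤ θ) → ∀ i j,
      nrm p (fun c => x i c - x j c)
        ≤ nrm p (fun c => contract x es i c - contract x es j c) + es.length * θ
  | [], _, i, j => by simp [contract]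
  | e :: es, h, i, j => by
      refine (contract_loss hp x es (fun e' he' => h e' (List.mem_cons_of_mem e he')) i j).trans ?_
      have h1 : nrm p (fun c => contract x es i c - contract x es j c)
          ≤ nrm p (fun c => |contract x (e :: es) i c - contract x (e :: es) j c|
              + |contract x es e.1 c - contract x es e.2 c|) :=
        nrm_mono hp fun c => ((squeeze_dist _ _ _ _).2).trans (le_abs_self _)
      have h2 := nrm_add hp (fun c => |contract x (e :: es) i c - contract x (e :: es) j c|)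
        (fun c => |contract x es e.1 c - contract x es e.2 c|)
      have h3 : nrm p (fun c => |contract x es e.1 c - contract x es e.2 c|) ≤ θ := by
        refine le_trans (nrm_mono hp fun c => ?_) (h e List.mem_cons_self)
        rw [abs_abs]
        exact contract_le x es e.1 e.2 c
      have h4 : nrm p (fun c => |contract x (e :: es) i c - contract x (e :: es) j c|)
          = nrm p (fun c => contract x (e :: es) i c - contract x (e :: es) j c) := by
        simp [nrm]
      rw [List.length_cons]
      push_cast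
      linarith

end Vale.Agent.P249
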