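import Mathlib
import Vale.Agent.P249.Embedding
import Vale.Agent.P249.Partition
import Vale.Agent.P249.Vec

/-!
One window of `J` dyadic scales: a map with bounded range that is Lipschitz for every pair and
bi-Lipschitz for the pairs whose distance lies in the window.
-/

namespace Vale.Agent.P249

open Finset

/-- A sampler for displacement vectors: additively Lipschitz, with small dimension. -/
lemma exists_sampler {p : ℝ} (hp : 1 ≤ p) : ∃ C : ℝ, 1 ≤ C ∧
    ∀ (ι : Type) [Fintype ι] (V : Type) [Fintype V] (u : V → ι → ℝ) (v₀ : V),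
      (∀ c, u v₀ c = 0) → ∀ (R σ : ℝ), 0 < σ → σ ≤ R → (∀ v, nrm p (u v) ≤ R) →
      ∀ d : ℕ, C * (R / σ) ^ (2 * p) * (1 + Real.log (Fintype.card V)) ≤ d →
      ∃ G : V → Fin d → ℝ, (∀ v, nrm p (G v) ≤ 2 * (nrm p (u v) + σ)) ∧
        ∀ v w, nrm p (fun b => G v b - G w b) ≤ 2 * (nrm p (fun c => u v c - u w c) + σ) ∧
          nrm p (fun c => u v c - u w c) - σ ≤ nrm p (fun b => G v b - G w b) := by
  have hp0 : 0 < p := by linarith
  obtain ⟨C₀, hC₀, hemb⟩ := embed_finite hp (D := (2:ℝ) ^ p) (Real.one_lt_rpow one_lt_two hp0)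
  refine ⟨max 1 (C₀ * (4:ℝ) ^ (2 * p)), le_max_left _ _, ?_⟩
  intro ι _ V _ u v₀ hv₀ R σ hσ hσR hR d hd
  classical
  set ds : V → V → ℝ := fun v w => nrm p (fun c => u v c - u w c) with hds
  -- a maximal `σ/2`-separated set through `v₀`
  set Good := (univ : Finset (Finset V)).filter
    (fun N => v₀ ∈ N ∧ ∀ a ∈ N, ∀ b ∈ N, a ≠ b → σ / 2 ≤ ds a b) with hGood
  obtain ⟨N, hN, hmax⟩ := exists_max_image Good Finset.card
    ⟨{v₀}, mem_filter.2 ⟨mem_univ _, mem_singleton_self _, fun a ha b hb hab =>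
      absurd ((mem_singleton.1 ha).trans (mem_singleton.1 hb).symm) hab⟩⟩
  obtain ⟨hN0, hNsep⟩ := (mem_filter.1 hN).2
  have hcover : ∀ v, ∃ a ∈ N, ds v a ≤ σ / 2 := by
    intro v
    by_contra hcon
    push Not at hcon
    have hv : v ∉ N := fun hv => by
      have := hcon v hv
      simp [hds, nrm_zero hp] at this
      linarith
    have : insert v N ∈ Good := by
      refine mem_filter.2 ⟨mem_univ _, mem_insert_of_mem hN0, fun a ha b hb hab => ?_⟩
      rcases mem_insert.1 ha with rfl | ha' <;> rcases mem_insert.1 hb with rfl | hb'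
      · exact absurd rfl hab
      · exact (hcon b hb').le
      · rw [hds]; simp only; rw [nrm_sub_comm]; exact (hcon a ha').le
      · exact hNsep a ha' b hb' hab
    have := hmax _ this
    rw [card_insert_of_notMem hv] at this
    omega
  choose q hq hqd using hcover
  -- it is enough to map the net
  suffices H : ∃ g : V → Fin d → ℝ, g v₀ = (fun _ => 0) ∧ ∀ a ∈ N, ∀ b ∈ N,
      ds a b ≤ nrm p (fun k => g a k - g b k) ∧ nrm p (fun k => g a k - g b k) ≤ 2 * ds a b by
    obtain ⟨g, hg0, hg⟩ := H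
    refine ⟨fun v => g (q v), fun v => ?_, fun v w => ?_⟩
    · have h1 := (hg (q v) (hq v) v₀ hN0).2
      rw [hg0] at h1
      simp only [sub_zero] at h1
      have e : ds v v₀ = nrm p (u v) := by simp [hds, hv₀]
      have h2 := nrm_triangle hp (u (q v)) (u v) (u v₀)
      have h3 : ds (q v) v = ds v (q v) := nrm_sub_comm _ _
      have h4 := hqd v
      simp only [hds] at h1 h2 h3 h4 e
      linarith
    · have h1 := (hg (q v) (hq v) (q w) (hq w))
      have a1 := nrm_triangle hp (u (q v)) (u v) (u (q w))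
      have a2 := nrm_triangle hp (u v) (u w) (u (q w))
      have b1 := nrm_triangle hp (u v) (u (q v)) (u w)
      have b2 := nrm_triangle hp (u (q v)) (u (q w)) (u w)
      have c1 : ds (q v) v = ds v (q v) := nrm_sub_comm _ _
      have c2 : ds (q w) w = ds w (q w) := nrm_sub_comm _ _
      have h4 := hqd v
      have h5 := hqd w
      simp only [hds] at *
      constructor <;> linarith [h1.1, h1.2]
  rcases Nat.lt_or_ge N.card 2 with h1 | h2
  · refine ⟨fun _ _ => 0, rfl, fun a ha b hb => ?_⟩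
    have : a = b := card_le_one.1 (by omega) a ha b hb
    subst this
    simp [hds, nrm_zero hp]
  set e := N.equivFin.symm
  set x : Fin N.card → ι → ℝ := fun k => u (e k).1 with hx
  have hrp : ∀ a b, ds a b ^ p = ∑ c, |u a c - u b c| ^ p := fun a b => nrm_rpow hp _
  obtain ⟨f, s, hs, hf⟩ := hemb ι N.card h2 x (4 * R / σ) (σ / 2) (by linarith)
    (fun i j hij => by
      have hne : (e i).1 ≠ (e j).1 := fun h => hij (e.injective (Subtype.ext h))
      have hd1 := hNsep _ (e i).2 _ (e j).2 hne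
      have hd2 : ds (e i).1 (e j).1 ≤ 4 * R / σ * (σ / 2) := by
        have := nrm_sub_le hp (u (e i).1) (u (e j).1)
        have e4 : 4 * R / σ * (σ / 2) = 2 * R := by field_simp; ring
        rw [e4]
        simp only [hds]
        linarith [hR (e i).1, hR (e j).1]
      simp only [hx]
      rw [← hrp]
      exact ⟨Real.rpow_le_rpow (by linarith) hd1 hp0.le,
        Real.rpow_le_rpow (nrm_nonneg _) hd2 hp0.le⟩)
    (div_nonneg (by linarith) hσ.le) d (by
      refine le_trans ?_ hd
      have hRσ : 0 ≤ R / σ := div_nonneg (by linarith) hσ.le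
      rw [mul_div_assoc, Real.mul_rpow (by norm_num) hRσ, ← mul_assoc]
      refine mul_le_mul (mul_le_mul_of_nonneg_right (le_max_right _ _) (by positivity)) ?_
        (Real.log_nonneg (by exact_mod_cast (show 1 ≤ N.card by omega))) (by positivity)
      have : Real.log (N.card : ℝ) ≤ Real.log (Fintype.card V) := by
        refine Real.log_le_log (by exact_mod_cast (show 0 < N.card by omega)) ?_
        exact_mod_cast card_le_univ N
      linarith)
  set a := (1 / s) ^ (1 / p) with ha
  have ha0 : 0 ≤ a := Real.rpow_nonneg (by positivity) _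
  have hap : a ^ p = 1 / s := by
    rw [ha, ← Real.rpow_mul (by positivity), one_div_mul_cancel hp0.ne', Real.rpow_one]
  set k₀ := e.symm ⟨v₀, hN0⟩
  refine ⟨fun v k => if hv : v ∈ N then a * (f (e.symm ⟨v, hv⟩) k - f k₀ k) else 0, ?_, ?_⟩
  · funext k; simp [hN0, k₀]
  intro v hv w hw
  obtain ⟨hl, hu⟩ := hf (e.symm ⟨v, hv⟩) (e.symm ⟨w, hw⟩)
  simp only [hx, Equiv.apply_symm_apply, ← hrp, ← nrm_rpow hp] at hl hu
  have hval : nrm p (fun k => (if hv : v ∈ N then a * (f (e.symm ⟨v, hv⟩) k - f k₀ k) else 0)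
      - (if hw : w ∈ N then a * (f (e.symm ⟨w, hw⟩) k - f k₀ k) else 0))
      = a * nrm p (fun k => f (e.symm ⟨v, hv⟩) k - f (e.symm ⟨w, hw⟩) k) := by
    rw [← nrm_smul hp ha0]
    congr 1; funext k
    rw [dif_pos hv, dif_pos hw]; ring
  rw [hval]
  set F := nrm p (fun k => f (e.symm ⟨v, hv⟩) k - f (e.symm ⟨w, hw⟩) k) with hF
  have hF0 : 0 ≤ F := nrm_nonneg _
  have hd0 : 0 ≤ ds v w := nrm_nonneg _
  constructor
  · refine (Real.rpow_le_rpow_iff hd0 (mul_nonneg ha0 hF0) hp0).1 ?_
    rw [Real.mul_rpow ha0 hF0, hap, one_div_mul_eq_div, le_div_iff₀ hs, mul_comm]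
    exact hl
  · refine (Real.rpow_le_rpow_iff (mul_nonneg ha0 hF0) (by positivity) hp0).1 ?_
    rw [Real.mul_rpow ha0 hF0, hap, one_div_mul_eq_div, div_le_iff₀ hs,
      Real.mul_rpow zero_le_two hd0]
    linarith

/-- One product norm. -/
lemma nrm_prod {α β : Type*} [Fintype α] [Fintype β] {p : ℝ} (hp : 1 ≤ p) (F : α × β → ℝ) :
    nrm p F ^ p = ∑ a, nrm p (fun b => F (a, b)) ^ p := by
  rw [nrm_rpow hp, Fintype.sum_prod_type]
  exact sum_congr rfl fun a _ => (nrm_rpow hp _).symm

/-- Concatenation of `N` blocks with total weight one. -/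
lemma nrm_blocks_le {α β : Type*} [Fintype α] [Fintype β] [Nonempty α] {p : ℝ} (hp : 1 ≤ p)
    (F : α → β → ℝ) {A : ℝ} (hA : 0 ≤ A) (h : ∀ a, nrm p (F a) ≤ A) :
    nrm p (fun z : α × β => ((Fintype.card α : ℝ) ^ (1 / p))⁻¹ * F z.1 z.2) ≤ A := by
  have hN : (0:ℝ) < Fintype.card α := by exact_mod_cast Fintype.card_pos
  refine (Real.rpow_le_rpow_iff (nrm_nonneg _) hA (by linarith : 0 < p)).1 ?_
  rw [nrm_smul hp (by positivity) (fun z : α × β => F z.1 z.2),
    Real.mul_rpow (by positivity) (nrm_nonneg _), Real.inv_rpow (by positivity),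
    ← Real.rpow_mul hN.le, one_div_mul_cancel (by linarith), Real.rpow_one,
    inv_mul_le_iff₀ hN, nrm_prod hp]
  calc ∑ a, nrm p (F a) ^ p ≤ ∑ _a : α, A ^ p :=
        sum_le_sum fun a _ => Real.rpow_le_rpow (nrm_nonneg _) (h a) (by linarith)
    _ = _ := by simp

/-- Half of the blocks already give half of a lower bound. -/
lemma nrm_blocks_ge {α β : Type*} [Fintype α] [Fintype β] [Nonempty α] {p : ℝ} (hp : 1 ≤ p)
    (F : α → β → ℝ) (S : Finset α) (hS : (Fintype.card α : ℝ) ≤ 2 * S.card) {A : ℝ} (hA : 0 ≤ A)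
    (h : ∀ a ∈ S, A ≤ nrm p (F a)) :
    A / 2 ≤ nrm p (fun z : α × β => ((Fintype.card α : ℝ) ^ (1 / p))⁻¹ * F z.1 z.2) := by
  have hN : (0:ℝ) < Fintype.card α := by exact_mod_cast Fintype.card_pos
  have hp0 : 0 < p := by linarith
  refine (Real.rpow_le_rpow_iff (by positivity) (nrm_nonneg _) hp0).1 ?_
  rw [nrm_smul hp (by positivity) (fun z : α × β => F z.1 z.2),
    Real.mul_rpow (by positivity) (nrm_nonneg _), Real.inv_rpow (by positivity),
    ← Real.rpow_mul hN.le, one_div_mul_cancel hp0.ne', Real.rpow_one,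
    le_inv_mul_iff₀ hN, nrm_prod hp, Real.div_rpow hA zero_le_two]
  have h2 : (2:ℝ) ≤ 2 ^ p := Real.self_le_rpow_of_one_le one_le_two hp
  have hAp : 0 ≤ A ^ p := Real.rpow_nonneg hA p
  calc (Fintype.card α : ℝ) * (A ^ p / 2 ^ p) ≤ 2 * S.card * (A ^ p / 2) :=
        mul_le_mul hS (div_le_div_of_nonneg_left hAp two_pos h2)
          (div_nonneg hAp (by positivity)) (by positivity)
    _ = ∑ _a ∈ S, A ^ p := by rw [sum_const, nsmul_eq_mul]; ring
    _ ≤ ∑ a ∈ S, nrm p (F a) ^ p :=
        sum_le_sum fun a ha => Real.rpow_le_rpow hA (h a ha) hp0.le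
    _ ≤ _ := sum_le_sum_of_subset_of_nonneg (subset_univ _) fun a _ _ =>
        Real.rpow_nonneg (nrm_nonneg _) p

section Metric

variable {n : ℕ} (dst : Fin n → Fin n → ℝ)

/-- Distance from `i` to the other parts of the partition given by `c`, capped at `R`. -/
noncomputable def pad [NeZero n] (R : ℝ) (c : Fin n → Fin n) (i : Fin n) : ℝ :=
  univ.inf' univ_nonempty fun z => if c z = c i then R else min R (dst i z)

variable [NeZero n]

lemma pad_le (R : ℝ) (c : Fin n → Fin n) {i j : Fin n} (h : c i ≠ c j) :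
    pad dst R c i ≤ dst i j :=
  (inf'_le _ (mem_univ j)).trans (by rw [if_neg (Ne.symm h)]; exact min_le_right _ _)

lemma le_pad {R : ℝ} {c : Fin n → Fin n} {i : Fin n} {t : ℝ} (htR : t ≤ R)
    (h : ∀ z, c z ≠ c i → t ≤ dst i z) : t ≤ pad dst R c i :=
  le_inf' _ _ fun z _ => by
    split_ifs with hz
    · exact htR
    · exact le_min htR (h z hz)

lemma pad_lip {R : ℝ} (htri : ∀ u v w, dst u w ≤ dst u v + dst v w) (hnn : ∀ u v, 0 ≤ dst u v)
    {c : Fin n → Fin n} {i j : Fin n} (h : c i = c j) :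
    pad dst R c i ≤ pad dst R c j + dst i j := by
  obtain ⟨z, -, hz⟩ := exists_mem_eq_inf' (univ_nonempty (α := Fin n))
    fun z => if c z = c j then R else min R (dst j z)
  have h1 : pad dst R c i ≤ if c z = c i then R else min R (dst i z) := inf'_le _ (mem_univ z)
  have h2 : pad dst R c j = if c z = c j then R else min R (dst j z) := hz
  rw [h] at h1
  rw [h2]
  refine h1.trans ?_
  have := hnn i j
  split_ifs with hc
  · linarith
  · rcases le_total R (dst j z) with h3 | h3
    · rw [min_eq_left h3]; linarith [min_le_left R (dst i z)]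
    · rw [min_eq_right h3]; linarith [min_le_right R (dst i z), htri i j z]

end Metric

end Vale.Agent.P249
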