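import Mathlib
import Vale.Agent.P249.Window

/-!
The map for one window of scales `[T, 2^J T]`.
-/

namespace Vale.Agent.P249

open Finset

/-- A vector placed in a larger coordinate space. -/
lemma nrm_extend {α β : Type*} [Fintype α] [Fintype β] {p : ℝ} (hp : 1 ≤ p) (g : α ↪ β)
    (v : α → ℝ) : nrm p (Function.extend g v 0) = nrm p v := by
  classical
  unfold nrm
  congr 1
  have : ∑ b, |Function.extend g v 0 b| ^ p
      = ∑ b ∈ univ.map g, |Function.extend g v 0 b| ^ p := by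
    refine (sum_subset (subset_univ _) fun b _ hb => ?_).symm
    rw [Function.extend_apply' _ _ _ (fun ⟨a, ha⟩ => hb (mem_map.2 ⟨a, mem_univ a, ha⟩))]
    simp [Real.zero_rpow (by linarith : p ≠ 0)]
  rw [this, sum_map]
  simp [g.injective.extend_apply]

/-- The local growth exponent at scale `r`. -/
noncomputable def growth {n : ℕ} (dst : Fin n → Fin n → ℝ) (i : Fin n) (r : ℝ) : ℝ :=
  1 + (Real.log (cball dst i (2 * r)).card - Real.log (cball dst i (r / 4)).card)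

lemma one_le_growth {n : ℕ} (dst : Fin n → Fin n → ℝ) {i : Fin n} (hi : dst i i = 0) {r : ℝ}
    (hr : 0 ≤ r) : 1 ≤ growth dst i r := by
  unfold growth
  rw [le_add_iff_nonneg_right, sub_nonneg]
  refine Real.log_le_log ?_ (Nat.cast_le.2 (card_le_card fun v hv => ?_))
  · exact_mod_cast card_pos.2 ⟨i, mem_filter.2 ⟨mem_univ i, by rw [hi]; linarith⟩⟩
  · simp only [cball, mem_filter, mem_univ, true_and] at hv ⊢
    linarith

/-- Average of the partition bound over `J` consecutive dyadic levels. -/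
lemma avg_cut {n : ℕ} (dst : Fin n → Fin n → ℝ) (i : Fin n) (hi : dst i i = 0) {R₀ : ℝ}
    (hR₀ : 0 < R₀) (J : ℕ) {a : ℝ} (hJ : Real.log n ≤ a * J) :
    ∑ l : Fin J, growth dst i (R₀ * 2 ^ (l : ℕ)) ≤ (1 + 3 * a) * J := by
  have h := sum_growth dst i hi hR₀ J
  rw [Fintype.card_fin] at h
  unfold growth
  rw [sum_add_distrib, sum_const, card_univ, Fintype.card_fin, nsmul_eq_mul, mul_one,
    Fin.sum_univ_eq_sum_range (fun l => Real.log (cball dst i (2 * (R₀ * 2 ^ l))).card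
      - Real.log (cball dst i (R₀ * 2 ^ l / 4)).card)]
  linarith

/-- The mean jump at one scale `r` of an additively Lipschitz map composed with a random
partition. -/
lemma mean_jump {κ Ω : Type*} [Fintype κ] [Fintype Ω] {p : ℝ} (hp : 1 ≤ p) {n : ℕ}
    (dst : Fin n → Fin n → ℝ) (hsymm : ∀ u v, dst u v = dst v u)
    (htri : ∀ u v w, dst u w ≤ dst u v + dst v w) {r r₀ g : ℝ} (hr₀ : r₀ ≤ r) (hr : 0 < r)
    (hg : 1 ≤ g) (H₀ : Fin n → κ → ℝ) {L : ℝ} (hL : 0 ≤ L)
    (hH₀ : ∀ i j, nrm p (fun b => H₀ i b - H₀ j b) ≤ L * (dst i j + r₀))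
    (c : Ω → Fin n → Fin n) (hcR : ∀ ω v, dst v (c ω v) ≤ r) (i j : Fin n)
    (hpos : 0 < dst i j)
    (hcut : ((univ.filter fun ω => c ω j ≠ c ω i).card : ℝ)
      ≤ (5 * dst i j / r) * g * Fintype.card Ω) :
    ∑ ω : Ω, nrm p (fun b => H₀ (c ω i) b - H₀ (c ω j) b)
      ≤ 24 * L * dst i j * g * Fintype.card Ω := by
  classical
  set δ := dst i j with hδ
  have hjump : ∀ ω : Ω, nrm p (fun b => H₀ (c ω i) b - H₀ (c ω j) b) ≤ L * (δ + 3 * r) := by
    intro ω
    refine (hH₀ _ _).trans (mul_le_mul_of_nonneg_left ?_ hL)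
    have h1 := htri (c ω i) i (c ω j)
    have h2 := htri i j (c ω j)
    rw [hsymm (c ω i) i] at h1
    linarith [hcR ω i, hcR ω j]
  have hN : (0:ℝ) ≤ Fintype.card Ω := Nat.cast_nonneg _
  have hLδ : 0 ≤ L * δ := mul_nonneg hL hpos.le
  rcases le_or_gt r δ with hbig | hsmall
  · refine (sum_le_sum fun ω _ => hjump ω).trans ?_
    rw [sum_const, card_univ, nsmul_eq_mul, mul_comm]
    refine mul_le_mul_of_nonneg_right ?_ hN
    have h1 := mul_le_mul_of_nonneg_left hbig hL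
    have h2 := mul_le_mul_of_nonneg_left hg hLδ
    linarith
  · rw [← sum_subset (subset_univ (univ.filter fun ω => c ω j ≠ c ω i)) (fun ω _ h => ?_)]
    · refine (sum_le_sum fun ω _ => hjump ω).trans ?_
      rw [sum_const, nsmul_eq_mul]
      refine (mul_le_mul hcut (mul_le_mul_of_nonneg_left (by linarith : δ + 3 * r ≤ 4 * r) hL)
        (mul_nonneg hL (by linarith)) (mul_nonneg (mul_nonneg (div_nonneg (by linarith) hr.le)
          (by linarith)) hN)).trans ?_
      have e2 : 5 * δ / r * g * Fintype.card Ω * (L * (4 * r))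
          = 20 * (L * δ * g * Fintype.card Ω) := by field_simp; ring
      rw [e2]
      have : 0 ≤ L * δ * g * Fintype.card Ω :=
        mul_nonneg (mul_nonneg hLδ (by linarith)) hN
      linarith
    · have : c ω j = c ω i := by simpa using h
      simp [this, nrm_zero hp]

/-- An additively Lipschitz map becomes Lipschitz after averaging over random partitions at `J`
scales, and changes little. -/
lemma smoothing {κ : Type*} [Fintype κ] {p : ℝ} (hp : 1 ≤ p) {n : ℕ} (hn : 2 ≤ n)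
    (dst : Fin n → Fin n → ℝ) (hd0 : ∀ u v, 0 ≤ dst u v) (hself : ∀ u, dst u u = 0)
    (hsymm : ∀ u v, dst u v = dst v u) (htri : ∀ u v w, dst u w ≤ dst u v + dst v w)
    (J : ℕ) (hJ1 : 1 ≤ J) {a : ℝ} (hJ : Real.log n ≤ a * J) {r₀ : ℝ} (hr₀ : 0 < r₀)
    (H₀ : Fin n → κ → ℝ) {L : ℝ} (hL : 0 ≤ L)
    (hH₀ : ∀ i j, nrm p (fun b => H₀ i b - H₀ j b) ≤ L * (dst i j + r₀)) :
    ∃ H : Fin n → κ → ℝ,
      (∀ (B : ℝ), (∀ i, nrm p (H₀ i) ≤ B) → ∀ i, nrm p (H i) ≤ B) ∧
      (∀ i, nrm p (fun b => H i b - H₀ i b) ≤ L * (r₀ * 2 ^ J + r₀)) ∧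
      ∀ i j, nrm p (fun b => H i b - H j b) ≤ 24 * (1 + 3 * a) * L * dst i j := by
  classical
  have : NeZero n := ⟨by omega⟩
  have hrpos : ∀ l : Fin J, 0 < r₀ * 2 ^ (l : ℕ) := fun l => by positivity
  have hrr0 : ∀ l : Fin J, r₀ ≤ r₀ * 2 ^ (l : ℕ) := fun l =>
    le_mul_of_one_le_right hr₀.le (one_le_pow₀ one_le_two)
  have hrtop : ∀ l : Fin J, r₀ * 2 ^ (l : ℕ) ≤ r₀ * 2 ^ J := fun l =>
    mul_le_mul_of_nonneg_left (pow_le_pow_right₀ one_le_two l.2.le) hr₀.le
  -- a grid fine enough for the smallest positive distance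
  obtain ⟨M, hM1, hM⟩ : ∃ M : ℕ, 1 ≤ M ∧
      ∀ u v : Fin n, 0 < dst u v → r₀ * 2 ^ J / dst u v ≤ M := by
    obtain ⟨M, hM⟩ := exists_nat_ge (∑ u, ∑ v, r₀ * 2 ^ J / dst u v)
    refine ⟨M + 1, by omega, fun u v _ => ?_⟩
    have h1 : ∀ u v, 0 ≤ r₀ * 2 ^ J / dst u v := fun u v => div_nonneg (by positivity) (hd0 u v)
    have h2 : r₀ * 2 ^ J / dst u v ≤ ∑ w, r₀ * 2 ^ J / dst u w :=
      single_le_sum (fun w _ => h1 u w) (mem_univ v)
    have h3 : ∑ w, r₀ * 2 ^ J / dst u w ≤ ∑ w, ∑ z, r₀ * 2 ^ J / dst w z :=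
      single_le_sum (f := fun w => ∑ z, r₀ * 2 ^ J / dst w z)
        (fun w _ => sum_nonneg fun z _ => h1 w z) (mem_univ u)
    push_cast
    linarith
  choose c hcR hc0 hcut using
    fun l : Fin J => exists_partition dst hself hsymm htri (hrpos l) M hM1
  have hMne : Nonempty (Fin M) := ⟨⟨0, by omega⟩⟩
  obtain ⟨Nω, hNω⟩ : ∃ x : ℝ, x = Fintype.card (Equiv.Perm (Fin n) × Fin M) := ⟨_, rfl⟩
  have hΩ : 0 < Nω := hNω ▸ by exact_mod_cast Fintype.card_pos
  obtain ⟨N, hN⟩ : ∃ x : ℝ, x = (J : ℝ) * Nω := ⟨_, rfl⟩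
  have hJr : (0:ℝ) < J := by exact_mod_cast hJ1
  have hNpos : 0 < N := hN ▸ mul_pos hJr hΩ
  have hconst : ∀ A : ℝ, N⁻¹ * ∑ _z : Fin J × Equiv.Perm (Fin n) × Fin M, A = A := by
    intro A
    rw [sum_const, card_univ, Fintype.card_prod, Fintype.card_fin, nsmul_eq_mul]
    push_cast
    rw [← hNω, ← hN, ← mul_assoc, inv_mul_cancel₀ hNpos.ne', one_mul]
  refine ⟨fun i b => N⁻¹ * ∑ z : Fin J × Equiv.Perm (Fin n) × Fin M, H₀ (c z.1 z.2 i) b,
    fun B hB i => ?_, fun i => ?_, fun i j => ?_⟩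
  · rw [nrm_smul hp (inv_nonneg.2 hNpos.le)]
    have h := (nrm_sum hp univ fun z : Fin J × Equiv.Perm (Fin n) × Fin M =>
      H₀ (c z.1 z.2 i)).trans (sum_le_sum fun z _ => hB (c z.1 z.2 i))
    exact (mul_le_mul_of_nonneg_left h (inv_nonneg.2 hNpos.le)).trans_eq (hconst B)
  · have e : (fun b => N⁻¹ * ∑ z : Fin J × Equiv.Perm (Fin n) × Fin M, H₀ (c z.1 z.2 i) b
          - H₀ i b)
        = fun b => N⁻¹ * ∑ z : Fin J × Equiv.Perm (Fin n) × Fin M,
            (H₀ (c z.1 z.2 i) b - H₀ i b) := by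
      funext b
      rw [sum_sub_distrib, mul_sub, hconst]
    rw [e, nrm_smul hp (inv_nonneg.2 hNpos.le)]
    have hz : ∀ z : Fin J × Equiv.Perm (Fin n) × Fin M,
        nrm p (fun b => H₀ (c z.1 z.2 i) b - H₀ i b) ≤ L * (r₀ * 2 ^ J + r₀) := fun z =>
      (hH₀ (c z.1 z.2 i) i).trans (mul_le_mul_of_nonneg_left (add_le_add
        (by rw [hsymm]; exact (hcR z.1 z.2 i).trans (hrtop z.1)) le_rfl) hL)
    have h := (nrm_sum hp univ fun (z : Fin J × Equiv.Perm (Fin n) × Fin M) (b : κ) =>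
      H₀ (c z.1 z.2 i) b - H₀ i b).trans (sum_le_sum fun z _ => hz z)
    exact (mul_le_mul_of_nonneg_left h (inv_nonneg.2 hNpos.le)).trans_eq (hconst _)
  · have e : (fun b => N⁻¹ * ∑ z : Fin J × Equiv.Perm (Fin n) × Fin M, H₀ (c z.1 z.2 i) b
          - N⁻¹ * ∑ z : Fin J × Equiv.Perm (Fin n) × Fin M, H₀ (c z.1 z.2 j) b)
        = fun b => N⁻¹ * ∑ z : Fin J × Equiv.Perm (Fin n) × Fin M,
            (H₀ (c z.1 z.2 i) b - H₀ (c z.1 z.2 j) b) := by
      funext b; rw [sum_sub_distrib, mul_sub]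
    rw [e, nrm_smul hp (inv_nonneg.2 hNpos.le)]
    rcases (hd0 i j).eq_or_lt' with h0 | hδpos
    · have heq : ∀ z : Fin J × Equiv.Perm (Fin n) × Fin M, c z.1 z.2 i = c z.1 z.2 j :=
        fun z => hc0 z.1 z.2 i j h0
      simp [heq, nrm_zero hp, h0]
    have key : ∀ l : Fin J,
        ∑ ω, nrm p (fun b => H₀ (c l ω i) b - H₀ (c l ω j) b)
          ≤ 24 * L * dst i j * growth dst i (r₀ * 2 ^ (l : ℕ)) * Nω := by
      intro l
      have hg := one_le_growth dst (hself i) (hrpos l).le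
      rw [hNω]
      refine mean_jump hp dst hsymm htri (hrr0 l) (hrpos l) hg H₀ hL hH₀ (c l) (hcR l) i j hδpos ?_
      have hc' := hcut l i (dst i j) (hd0 i j)
      refine le_trans ?_ (hc'.trans ?_)
      · refine Nat.cast_le.2 (card_le_card fun ω hω => ?_)
        simp only [mem_filter, mem_univ, true_and] at hω ⊢
        exact ⟨j, le_rfl, hω⟩
      · refine mul_le_mul_of_nonneg_right (mul_le_mul_of_nonneg_right ?_ ?_) (Nat.cast_nonneg _)
        · have h1 : 1 / (M:ℝ) ≤ dst i j / (r₀ * 2 ^ (l : ℕ)) := by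
            have h2 := hM i j hδpos
            rw [div_le_iff₀ hδpos] at h2
            rw [div_le_div_iff₀ (by exact_mod_cast hM1) (hrpos l)]
            linarith [hrtop l]
          calc 4 * dst i j / (r₀ * 2 ^ (l : ℕ)) + 1 / (M:ℝ)
              ≤ 4 * dst i j / (r₀ * 2 ^ (l : ℕ)) + dst i j / (r₀ * 2 ^ (l : ℕ)) := by linarith
            _ = _ := by ring
        · unfold growth at hg; linarith
    refine (mul_le_mul_of_nonneg_left ((nrm_sum hp univ
      fun (z : Fin J × Equiv.Perm (Fin n) × Fin M) (b : κ) =>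
        H₀ (c z.1 z.2 i) b - H₀ (c z.1 z.2 j) b).trans
      (?_ : _ ≤ 24 * L * dst i j * ((1 + 3 * a) * J) * Nω))
      (inv_nonneg.2 hNpos.le)).trans
      (le_of_eq (show N⁻¹ * (24 * L * dst i j * ((1 + 3 * a) * J) * Nω)
          = 24 * (1 + 3 * a) * L * dst i j by
        rw [hN]; field_simp))
    rw [Fintype.sum_prod_type]
    refine (sum_le_sum fun l _ => key l).trans ?_
    rw [← sum_mul, ← mul_sum]
    exact mul_le_mul_of_nonneg_right
      (mul_le_mul_of_nonneg_left (avg_cut dst i (hself i) hr₀ J hJ)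
        (mul_nonneg (by linarith) hδpos.le)) hΩ.le

/-- A few partitions, at radii `R₀ 2^l` for `l < J`, of which at least half pad any given point. -/
lemma padded_samples {n : ℕ} (hn : 2 ≤ n) (dst : Fin n → Fin n → ℝ)
    (hself : ∀ u, dst u u = 0) (hsymm : ∀ u v, dst u v = dst v u)
    (htri : ∀ u v w, dst u w ≤ dst u v + dst v w) (J : ℕ) (hJ1 : 1 ≤ J) {a : ℝ} (ha : 0 ≤ a)
    (hJ : Real.log n ≤ a * J) {R₀ : ℝ} (hR₀ : 0 < R₀) {ξ : ℝ}
    (hξ : ξ = 1 / (20 * (1 + 3 * a))) :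
    ∃ (N : ℕ) (ctr : Fin N → Fin n → Fin n) (lev : Fin N → Fin J),
      0 < N ∧ (N:ℝ) ≤ 156 * Real.log n + 2 ∧
      (∀ s v, dst v (ctr s v) ≤ R₀ * 2 ^ (lev s : ℕ)) ∧
      ∀ i, ∃ S : Finset (Fin N), (N:ℝ) ≤ 2 * S.card ∧
        ∀ s ∈ S, ∀ z, dst i z ≤ ξ * (R₀ * 2 ^ (lev s : ℕ)) → ctr s z = ctr s i := by
  classical
  have : NeZero n := ⟨by omega⟩
  have hξ0 : 0 < ξ := by rw [hξ]; positivity
  obtain ⟨M, hM⟩ := exists_nat_ge (1 / ξ)
  have hM1 : 1 ≤ M := by
    have : (0:ℝ) < M := lt_of_lt_of_le (by positivity) hM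
    exact_mod_cast this
  have hrpos : ∀ l : Fin J, 0 < R₀ * 2 ^ (l : ℕ) := fun l => by positivity
  choose c hcR _ hcut using
    fun l : Fin J => exists_partition dst hself hsymm htri (hrpos l) M hM1
  have hne : Nonempty (Fin J × Equiv.Perm (Fin n) × Fin M) :=
    ⟨(⟨0, by omega⟩, 1, ⟨0, by omega⟩)⟩
  obtain ⟨NΩ, hNΩ⟩ : ∃ x : ℝ, x = Fintype.card (Fin J × Equiv.Perm (Fin n) × Fin M) := ⟨_, rfl⟩
  have hΩ : 0 < NΩ := hNΩ ▸ by exact_mod_cast Fintype.card_pos
  set Y : Fin n → Fin J × Equiv.Perm (Fin n) × Fin M → ℝ := fun i ω =>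
    if ∀ z, dst i z ≤ ξ * (R₀ * 2 ^ (ω.1 : ℕ)) → c ω.1 ω.2 z = c ω.1 ω.2 i then 1 else 0
    with hY
  have hY0 : ∀ i ω, 0 ≤ Y i ω := fun i ω => by simp only [hY]; split_ifs <;> norm_num
  have hY1 : ∀ i ω, Y i ω ≤ 1 := fun i ω => by simp only [hY]; split_ifs <;> norm_num
  have hmean : ∀ i, 3 / 4 ≤ ∑ ω, 1 / NΩ * Y i ω := by
    intro i
    have hcomp : ∑ ω, (1 - Y i ω) ≤ NΩ / 4 := by
      rw [Fintype.sum_prod_type]
      refine (sum_le_sum fun l _ => ?_).trans (b := ∑ l : Fin J,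
        5 * ξ * growth dst i (R₀ * 2 ^ (l : ℕ)) * Fintype.card (Equiv.Perm (Fin n) × Fin M)) ?_
      · refine le_trans (le_of_eq ?_)
          ((hcut l i (ξ * (R₀ * 2 ^ (l : ℕ))) (mul_nonneg hξ0.le (hrpos l).le)).trans ?_)
        · rw [← sum_boole]
          refine sum_congr rfl fun ω _ => ?_
          simp only [hY]
          by_cases h : ∀ z, dst i z ≤ ξ * (R₀ * 2 ^ (l : ℕ)) → c l ω z = c l ω i
          · rw [if_pos h, if_neg (fun ⟨z, h1, h2⟩ => h2 (h z h1)), sub_self]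
          · rw [if_neg h, if_pos (by push Not at h; exact h), sub_zero]
        · refine mul_le_mul_of_nonneg_right (mul_le_mul_of_nonneg_right ?_ ?_) (Nat.cast_nonneg _)
          · have h2 : 1 / (M:ℝ) ≤ ξ := by
              rw [div_le_iff₀ (by exact_mod_cast hM1)]
              rw [div_le_iff₀ hξ0] at hM
              linarith
            rw [show 4 * (ξ * (R₀ * 2 ^ (l : ℕ))) / (R₀ * 2 ^ (l : ℕ)) = 4 * ξ by
              field_simp]
            linarith
          · have := one_le_growth dst (hself i) (hrpos l).le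
            unfold growth at this; linarith
      · rw [← sum_mul, ← mul_sum]
        refine (mul_le_mul_of_nonneg_right (mul_le_mul_of_nonneg_left
          (avg_cut dst i (hself i) hR₀ J hJ) (by linarith)) (Nat.cast_nonneg _)).trans
          (le_of_eq ?_)
        rw [hNΩ, hξ]
        simp only [Fintype.card_prod, Fintype.card_fin]
        push_cast
        field_simp
        ring
    rw [sum_sub_distrib, sum_const, card_univ, nsmul_eq_mul, mul_one, ← hNΩ] at hcomp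
    rw [← mul_sum, one_div_mul_eq_div, le_div_iff₀ hΩ]
    linarith
  obtain ⟨N, hNdef⟩ : ∃ N : ℕ, N = ⌈156 * Real.log n⌉₊ + 1 := ⟨_, rfl⟩
  have hlog : 0 ≤ Real.log n := Real.log_natCast_nonneg n
  have hNge : 156 * Real.log n ≤ N := by
    rw [hNdef]; push_cast; linarith [Nat.le_ceil (156 * Real.log n)]
  obtain ⟨F, hF⟩ := exists_good (P := fun _ : Fin J × Equiv.Perm (Fin n) × Fin M => 1 / NΩ)
    (fun _ => by positivity)
    (by rw [sum_const, card_univ, nsmul_eq_mul, ← hNΩ, mul_one_div, div_self hΩ.ne'])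
    (univ : Finset (Fin n)) Y hY0 hY1 (n := n) (d := N) hn
    (by rw [card_univ, Fintype.card_fin]; exact Nat.le_mul_self n) (ε := 1 / 3) (by norm_num)
    (by norm_num) (fun i _ => by
      have := mul_le_mul_of_nonneg_left (hmean i) (Nat.cast_nonneg (α := ℝ) N)
      linarith)
  refine ⟨N, fun s => c (F s).1 (F s).2, fun s => (F s).1, by omega, ?_,
    fun s v => hcR _ _ v, fun i => ?_⟩
  · rw [hNdef]; push_cast
    linarith [Nat.ceil_lt_add_one (by positivity : 0 ≤ 156 * Real.log n)]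
  refine ⟨univ.filter fun s => ∀ z, dst i z ≤ ξ * (R₀ * 2 ^ ((F s).1 : ℕ)) →
      c (F s).1 (F s).2 z = c (F s).1 (F s).2 i, ?_, fun s hs => (mem_filter.1 hs).2⟩
  have h1 := (hF i (mem_univ i)).1
  have h2 := mul_le_mul_of_nonneg_left (hmean i) (Nat.cast_nonneg (α := ℝ) N)
  have h3 : ∑ s, Y i (F s) = ((univ.filter fun s => ∀ z,
      dst i z ≤ ξ * (R₀ * 2 ^ ((F s).1 : ℕ)) →
        c (F s).1 (F s).2 z = c (F s).1 (F s).2 i).card : ℝ) := by
    simp only [hY]
    exact sum_boole _ _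
  rw [h3] at h1
  linarith

/-- One block `ρ · S(x - centre)` is additively Lipschitz, and exact where the ramp is full. -/
lemma block_lemma {κ : Type*} [Fintype κ] {p : ℝ} (hp : 1 ≤ p) {n : ℕ} [NeZero n]
    (dst : Fin n → Fin n → ℝ) (hd0 : ∀ u v, 0 ≤ dst u v)
    (hsymm : ∀ u v, dst u v = dst v u) (htri : ∀ u v w, dst u w ≤ dst u v + dst v w)
    {R σ ξ : ℝ} (hR : 0 < R) (hσ : 0 ≤ σ) (hξ : 0 < ξ) (hξ1 : ξ ≤ 1) (c : Fin n → Fin n)
    (S : Fin n → κ → ℝ) (hSR : ∀ i, nrm p (S i) ≤ 4 * R)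
    (hS : ∀ i j, c i = c j → nrm p (fun b => S i b - S j b) ≤ 2 * (dst i j + σ)) :
    (∀ i, nrm p (fun b => min 1 (2 * pad dst R c i / (ξ * R)) * S i b) ≤ 4 * R) ∧
    (∀ i j, nrm p (fun b => min 1 (2 * pad dst R c i / (ξ * R)) * S i b
        - min 1 (2 * pad dst R c j / (ξ * R)) * S j b) ≤ (16 / ξ + 2) * (dst i j + σ)) ∧
    ∀ i j, (∀ z, dst i z ≤ ξ * R → c z = c i) → dst i j ≤ ξ * R / 2 →
      c j = c i ∧ min 1 (2 * pad dst R c i / (ξ * R)) = 1 ∧
        min 1 (2 * pad dst R c j / (ξ * R)) = 1 := by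
  have hξR : 0 < ξ * R := mul_pos hξ hR
  have hρ0 : ∀ i, 0 ≤ min 1 (2 * pad dst R c i / (ξ * R)) := fun i => le_min zero_le_one
    (div_nonneg (mul_nonneg zero_le_two (le_pad dst hR.le fun z _ => hd0 i z)) hξR.le)
  refine ⟨fun i => ?_, fun i j => ?_, fun i j hg hij => ?_⟩
  · rw [nrm_smul hp (hρ0 i)]
    exact (mul_le_of_le_one_left (nrm_nonneg _) (min_le_left _ _)).trans (hSR i)
  · have hδ := hd0 i j
    have hσ' : 0 ≤ 16 / ξ * σ := by positivity
    have e16 : 16 / ξ * dst i j = 2 * (8 / ξ * dst i j) := by ring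
    have he8 : 0 ≤ 8 / ξ * dst i j := by positivity
    by_cases hc : c i = c j
    · have e : (fun b => min 1 (2 * pad dst R c i / (ξ * R)) * S i b
          - min 1 (2 * pad dst R c j / (ξ * R)) * S j b) = fun b =>
          (min 1 (2 * pad dst R c i / (ξ * R)) - min 1 (2 * pad dst R c j / (ξ * R))) * S i b
            + min 1 (2 * pad dst R c j / (ξ * R)) * (S i b - S j b) := by
        funext b; ring
      rw [e]
      have h1 : |min 1 (2 * pad dst R c i / (ξ * R)) - min 1 (2 * pad dst R c j / (ξ * R))|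
          ≤ 2 * dst i j / (ξ * R) := by
        refine (abs_min_sub_min_le_max _ _ _ _).trans (max_le (by
          rw [sub_self, abs_zero]; exact div_nonneg (by linarith) hξR.le) ?_)
        rw [← sub_div, abs_div, abs_of_nonneg hξR.le]
        refine div_le_div_of_nonneg_right ?_ hξR.le
        rw [abs_le]
        constructor <;>
          linarith [pad_lip dst (R := R) htri hd0 hc, pad_lip dst (R := R) htri hd0 hc.symm,
            hsymm i j]
      have a1 : nrm p (fun b => (min 1 (2 * pad dst R c i / (ξ * R))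
          - min 1 (2 * pad dst R c j / (ξ * R))) * S i b) ≤ 8 / ξ * dst i j := by
        refine (nrm_mono hp (w := fun b => |min 1 (2 * pad dst R c i / (ξ * R))
          - min 1 (2 * pad dst R c j / (ξ * R))| * S i b)
          (fun b => by rw [abs_mul, abs_mul, abs_abs])).trans ?_
        rw [nrm_smul hp (abs_nonneg _)]
        refine (mul_le_mul h1 (hSR i) (nrm_nonneg _)
          ((abs_nonneg _).trans h1)).trans (le_of_eq ?_)
        field_simp
        ring
      have a2 : nrm p (fun b => min 1 (2 * pad dst R c j / (ξ * R)) * (S i b - S j b))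
          ≤ 2 * (dst i j + σ) := by
        rw [nrm_smul hp (hρ0 j)]
        exact (mul_le_of_le_one_left (nrm_nonneg _) (min_le_left _ _)).trans (hS i j hc)
      refine (nrm_add hp _ _).trans ?_
      linarith
    · have side : ∀ k, pad dst R c k ≤ dst i j →
          nrm p (fun b => min 1 (2 * pad dst R c k / (ξ * R)) * S k b) ≤ 8 / ξ * dst i j := by
        intro k hk
        rw [nrm_smul hp (hρ0 k)]
        have h1 : min 1 (2 * pad dst R c k / (ξ * R)) ≤ 2 * dst i j / (ξ * R) :=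
          (min_le_right _ _).trans (div_le_div_of_nonneg_right (by linarith) hξR.le)
        refine (mul_le_mul h1 (hSR k) (nrm_nonneg _) (le_trans (hρ0 k) h1)).trans (le_of_eq ?_)
        field_simp
        ring
      refine (nrm_sub_le hp _ _).trans ((add_le_add (side i (pad_le dst _ _ hc))
        (side j ((pad_le dst _ _ (Ne.symm hc)).trans_eq (hsymm j i)))).trans ?_)
      linarith
  · have hcij : c j = c i := hg j (by linarith)
    refine ⟨hcij, ?_, ?_⟩
    · refine min_eq_left ?_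
      rw [le_div_iff₀ hξR, one_mul]
      have : ξ * R ≤ pad dst R c i := by
        refine le_pad dst (mul_le_of_le_one_left hR.le hξ1) fun z hz => ?_
        by_contra hlt
        exact hz (hg z (not_le.1 hlt).le)
      linarith
    · refine min_eq_left ?_
      rw [le_div_iff₀ hξR, one_mul]
      have : ξ * R / 2 ≤ pad dst R c j := by
        refine le_pad dst ?_ fun z hz => ?_
        · linarith [mul_le_of_le_one_left hR.le hξ1]
        · by_contra hlt
          refine hz ?_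
          rw [hcij]
          exact hg z (by linarith [htri i j z])
      linarith

/-- Dimension count for one window. -/
lemma window_dim {p : ℝ} (hp : 1 ≤ p) {CS Q B ℓ N d₀ V : ℝ} (hCS : 0 ≤ CS) (hQ : 0 ≤ Q)
    (hB : 1 ≤ B) (hℓ : Real.log 2 ≤ ℓ) (hN : N ≤ 156 * ℓ + 2)
    (hV : V ≤ 3 * ℓ + 1) (hd₀' : 0 ≤ d₀) (hd₀ : d₀ ≤ CS * (Q * B ^ 3) ^ (2 * p) * V + 1) :
    N * d₀ ≤ (156 + 2 / Real.log 2) * (CS * Q ^ (2 * p) * (1 / Real.log 2 + 3)
      + 1 / Real.log 2) * B ^ (6 * p) * ℓ * ℓ := by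
  have hl2 : 0 < Real.log 2 := Real.log_pos one_lt_two
  have hone : 1 ≤ ℓ * (1 / Real.log 2) := by rw [mul_one_div, one_le_div hl2]; exact hℓ
  have hB0 : 0 ≤ B := by linarith
  have hℓ0 : 0 < ℓ := lt_of_lt_of_le hl2 hℓ
  have e : (Q * B ^ 3) ^ (2 * p) = Q ^ (2 * p) * B ^ (6 * p) := by
    rw [Real.mul_rpow hQ (by positivity), ← Real.rpow_natCast B 3, ← Real.rpow_mul hB0]
    push_cast; ring_nf
  have hBp : 1 ≤ B ^ (6 * p) := Real.one_le_rpow hB (by linarith)
  have hV' : V ≤ (1 / Real.log 2 + 3) * ℓ := by linarith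
  have hN' : N ≤ (156 + 2 / Real.log 2) * ℓ := by
    have e2 : (156 + 2 / Real.log 2) * ℓ = 156 * ℓ + 2 * (ℓ * (1 / Real.log 2)) := by ring
    linarith
  have hd' : d₀ ≤ (CS * Q ^ (2 * p) * (1 / Real.log 2 + 3) + 1 / Real.log 2)
      * (B ^ (6 * p) * ℓ) := by
    rw [e] at hd₀
    have h1 := mul_le_mul_of_nonneg_left hV'
      (show 0 ≤ CS * (Q ^ (2 * p) * B ^ (6 * p)) by positivity)
    have h2 : 1 ≤ B ^ (6 * p) * (ℓ * (1 / Real.log 2)) := one_le_mul_of_one_le_of_one_le hBp hone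
    linarith
  calc N * d₀ ≤ ((156 + 2 / Real.log 2) * ℓ)
      * ((CS * Q ^ (2 * p) * (1 / Real.log 2 + 3) + 1 / Real.log 2) * (B ^ (6 * p) * ℓ)) :=
        mul_le_mul hN' hd' hd₀' (by positivity)
    _ = _ := by ring

/-- The map for the window `[T, 2^J T]`. -/
theorem window_map {p : ℝ} (hp : 1 ≤ p) {a : ℝ} (ha : 0 ≤ a) : ∃ A K C : ℝ,
    1 ≤ A ∧ 1 ≤ K ∧ 0 < C ∧ ∀ (ι : Type) [Fintype ι] (n : ℕ), 2 ≤ n → ∀ J : ℕ, 1 ≤ J →
      Real.log n ≤ a * J → ∀ (x : Fin n → ι → ℝ) (T : ℝ), 0 < T →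
      ∀ d : ℕ, C * ((2:ℝ) ^ J) ^ (6 * p) * Real.log n * Real.log n ≤ d →
      ∃ H : Fin n → Fin d → ℝ, (∀ i, nrm p (H i) ≤ K * T * (2 ^ J) ^ 2) ∧
        ∀ i j, nrm p (fun b => H i b - H j b) ≤ A * nrm p (fun c => x i c - x j c) ∧
          (T / 2 ≤ nrm p (fun c => x i c - x j c) →
            nrm p (fun c => x i c - x j c) ≤ T * 2 ^ J →
            nrm p (fun c => x i c - x j c) / 4 ≤ nrm p (fun b => H i b - H j b)) := by
  have hp0 : 0 < p := by linarith
  obtain ⟨CS, hCS1, hsampler⟩ := exists_sampler hp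
  obtain ⟨ξ, hξ⟩ : ∃ ξ : ℝ, ξ = 1 / (20 * (1 + 3 * a)) := ⟨_, rfl⟩
  have hξ0 : 0 < ξ := by rw [hξ]; positivity
  have hξ1 : ξ ≤ 1 / 20 := by rw [hξ]; exact one_div_le_one_div_of_le (by norm_num) (by linarith)
  obtain ⟨L, hLdef⟩ : ∃ L : ℝ, L = 16 / ξ + 2 := ⟨_, rfl⟩
  have hL2 : 2 ≤ L := hLdef ▸ le_add_of_nonneg_left (by positivity)
  obtain ⟨Q, hQ⟩ : ∃ Q : ℝ, Q = 2 / ξ * (80 * L) := ⟨_, rfl⟩
  have hQ0 : 0 < Q := hQ ▸ by positivity
  have hl20 : 0 < Real.log 2 := Real.log_pos one_lt_two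
  refine ⟨24 * (1 + 3 * a) * L, 4 * (2 / ξ),
    (156 + 2 / Real.log 2) * (CS * Q ^ (2 * p) * (1 / Real.log 2 + 3) + 1 / Real.log 2),
    ?_, ?_, by positivity, ?_⟩
  · nlinarith
  · have h1 : 1 ≤ 2 / ξ := by rw [le_div_iff₀ hξ0]; linarith
    linarith
  intro ι _ n hn J hJ1 hJ x T hT d hd
  classical
  have : NeZero n := ⟨by omega⟩
  set dst : Fin n → Fin n → ℝ := fun i j => nrm p (fun c => x i c - x j c) with hdst
  have hd0 : ∀ u v, 0 ≤ dst u v := fun u v => nrm_nonneg _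
  have hself : ∀ u, dst u u = 0 := fun u => by simp [hdst, nrm_zero hp]
  have hsymm : ∀ u v, dst u v = dst v u := fun u v => nrm_sub_comm _ _
  have htri : ∀ u v w, dst u w ≤ dst u v + dst v w := fun u v w => nrm_triangle hp _ _ _
  obtain ⟨B, hB⟩ : ∃ B : ℝ, B = (2:ℝ) ^ J := ⟨_, rfl⟩
  have hB1 : 1 ≤ B := hB ▸ one_le_pow₀ one_le_two
  have hB0 : 0 < B := by linarith
  rw [← hB] at hd
  obtain ⟨R₀, hR₀⟩ : ∃ R₀ : ℝ, R₀ = 2 / ξ * T * B := ⟨_, rfl⟩
  have hR₀pos : 0 < R₀ := hR₀ ▸ by positivity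
  obtain ⟨σ, hσ⟩ : ∃ σ : ℝ, σ = T / (80 * L * B) := ⟨_, rfl⟩
  have hσ0 : 0 < σ := hσ ▸ by positivity
  have hσT : σ ≤ T / 80 := by
    rw [hσ]
    refine div_le_div_of_nonneg_left hT.le (by norm_num) ?_
    nlinarith
  have hσR : σ ≤ R₀ := by
    have h1 : 1 ≤ 2 / ξ := by rw [le_div_iff₀ hξ0]; linarith
    have h3 : (1:ℝ) * T * 1 ≤ 2 / ξ * T * B := by gcongr
    linarith
  obtain ⟨N, ctr, lev, hNpos, hNle, hcR, hgood⟩ :=
    padded_samples hn dst hself hsymm htri J hJ1 ha hJ hR₀pos hξ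
  have hr0 : ∀ s, R₀ ≤ R₀ * 2 ^ (lev s : ℕ) := fun s =>
    le_mul_of_one_le_right hR₀pos.le (one_le_pow₀ one_le_two)
  have hrtop : ∀ s, R₀ * 2 ^ (lev s : ℕ) ≤ R₀ * B := fun s =>
    hB ▸ mul_le_mul_of_nonneg_left (pow_le_pow_right₀ one_le_two (lev s).2.le) hR₀pos.le
  -- sampler on the displacements
  set u : Option (Fin n × Fin n) → ι → ℝ := fun v => v.elim 0 fun z c =>
    if dst z.1 z.2 ≤ R₀ * B then x z.1 c - x z.2 c else 0 with hu
  have huR : ∀ v, nrm p (u v) ≤ R₀ * B := by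
    intro v
    have hRt : 0 ≤ R₀ * B := mul_nonneg hR₀pos.le hB0.le
    rcases v with _ | z
    · exact le_trans (le_of_eq (nrm_zero hp)) hRt
    · by_cases hz : dst z.1 z.2 ≤ R₀ * B
      · simp only [hu, Option.elim, if_pos hz]; exact hz
      · simp only [hu, Option.elim, if_neg hz]; exact le_trans (le_of_eq (nrm_zero hp)) hRt
  obtain ⟨d₀, hd₀def⟩ : ∃ d₀ : ℕ, d₀ = ⌈CS * (R₀ * B / σ) ^ (2 * p)
      * (1 + Real.log (Fintype.card (Option (Fin n × Fin n))))⌉₊ := ⟨_, rfl⟩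
  obtain ⟨S, hSrange, hS⟩ := hsampler ι _ u none (fun c => rfl) (R₀ * B) σ hσ0
    (hσR.trans (le_mul_of_one_le_right hR₀pos.le hB1)) huR d₀ (hd₀def ▸ Nat.le_ceil _)
  set blk : Fin N → Fin n → Fin d₀ → ℝ := fun s i b =>
    min 1 (2 * pad dst (R₀ * 2 ^ (lev s : ℕ)) (ctr s) i / (ξ * (R₀ * 2 ^ (lev s : ℕ))))
      * S (some (i, ctr s i)) b with hblk
  have hu' : ∀ s i c', u (some (i, ctr s i)) c' = x i c' - x (ctr s i) c' := fun s i c' => by
    simp [hu, (hcR s i).trans (hrtop s)]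
  have hSR : ∀ s i, nrm p (S (some (i, ctr s i))) ≤ 4 * (R₀ * 2 ^ (lev s : ℕ)) := by
    intro s i
    have h1 : nrm p (u (some (i, ctr s i))) = dst i (ctr s i) := by
      simp only [hdst]; congr 1; funext c'; exact hu' s i c'
    have h2 := hSrange (some (i, ctr s i))
    rw [h1] at h2
    linarith [hcR s i, hσR.trans (hr0 s)]
  have hdiff : ∀ s i j, ctr s i = ctr s j →
      nrm p (fun c => u (some (i, ctr s i)) c - u (some (j, ctr s j)) c) = dst i j := by
    intro s i j hc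
    simp only [hdst]; congr 1; funext c'
    rw [hu', hu', hc]; ring
  have hblock := fun s => block_lemma hp dst hd0 hsymm htri
    (show 0 < R₀ * 2 ^ (lev s : ℕ) by positivity) hσ0.le hξ0 (by linarith) (ctr s)
    (fun i => S (some (i, ctr s i))) (hSR s)
    (fun i j hc => (hS _ _).1.trans_eq (by rw [hdiff s i j hc]))
  set H₀ : Fin n → Fin N × Fin d₀ → ℝ := fun i z =>
    ((Fintype.card (Fin N) : ℝ) ^ (1 / p))⁻¹ * blk z.1 i z.2 with hH₀
  have hNne : Nonempty (Fin N) := ⟨⟨0, hNpos⟩⟩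
  have hH₀range : ∀ i, nrm p (H₀ i) ≤ 4 * (R₀ * B) := fun i =>
    nrm_blocks_le hp (fun s => blk s i) (by positivity)
      (fun s => ((hblock s).1 i).trans (by linarith [hrtop s]))
  have hH₀lip : ∀ i j, nrm p (fun z => H₀ i z - H₀ j z) ≤ L * (dst i j + σ) := by
    intro i j
    refine le_trans (le_of_eq ?_)
      (nrm_blocks_le hp (fun s b => blk s i b - blk s j b)
        (mul_nonneg (by linarith) (by linarith [hd0 i j]))
        (fun s => hLdef ▸ (hblock s).2.1 i j))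
    simp only [hH₀]
    congr 1; funext z; ring
  obtain ⟨H, hHrange, hHclose, hHlip⟩ :=
    smoothing hp hn dst hd0 hself hsymm htri J hJ1 hJ hσ0 H₀ (by linarith : 0 ≤ L) hH₀lip
  have hclose : ∀ i, nrm p (fun z => H i z - H₀ i z) ≤ T / 40 := by
    intro i
    refine (hHclose i).trans ?_
    rw [← hB]
    calc L * (σ * B + σ) ≤ L * (σ * B + σ * B) := by
          gcongr; exact le_mul_of_one_le_right hσ0.le hB1
      _ = T / 40 := by
          have := hB0.ne'
          rw [hσ]; field_simp; ring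
  have hH₀low : ∀ i j, T / 2 ≤ dst i j → dst i j ≤ T * B →
      (dst i j - σ) / 2 ≤ nrm p (fun z => H₀ i z - H₀ j z) := by
    intro i j hlo hhi
    obtain ⟨Sg, hSg, hSgood⟩ := hgood i
    refine le_trans (nrm_blocks_ge hp (fun s b => blk s i b - blk s j b) Sg
      (by rw [Fintype.card_fin]; exact hSg)
      (by linarith : 0 ≤ dst i j - σ) fun s hs => ?_) (le_of_eq ?_)
    · have hξR : T * B ≤ ξ * (R₀ * 2 ^ (lev s : ℕ)) / 2 := by
        have h1 := mul_le_mul_of_nonneg_left (hr0 s) hξ0.le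
        have h2 : ξ * R₀ = T * B * 2 := by rw [hR₀]; field_simp
        linarith
      obtain ⟨hc, hρi, hρj⟩ := (hblock s).2.2 i j (hSgood s hs) (hhi.trans hξR)
      have h2 := (hS (some (i, ctr s i)) (some (j, ctr s j))).2
      rw [hdiff s i j hc.symm] at h2
      refine h2.trans (le_of_eq ?_)
      congr 1; funext b
      simp only [hblk, hρi, hρj, one_mul]
    · simp only [hH₀]
      congr 1; funext z; ring
  -- place the coordinates into `Fin d`
  have hcard : Fintype.card (Fin N × Fin d₀) ≤ d := by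
    rw [Fintype.card_prod, Fintype.card_fin, Fintype.card_fin]
    refine Nat.cast_le (α := ℝ).1 ?_
    push_cast
    refine le_trans (window_dim hp (CS := CS) (Q := Q)
      (V := 1 + Real.log (Fintype.card (Option (Fin n × Fin n)))) (by linarith) hQ0.le hB1
      (Real.log_le_log two_pos (by exact_mod_cast hn)) hNle ?_ (Nat.cast_nonneg _) ?_) hd
    · have h1 : (Fintype.card (Option (Fin n × Fin n)) : ℝ) ≤ (n:ℝ) ^ 3 := by
        simp only [Fintype.card_option, Fintype.card_prod, Fintype.card_fin]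
        push_cast
        have hn' : (2:ℝ) ≤ n := by exact_mod_cast hn
        nlinarith
      have h2 := Real.log_le_log (by exact_mod_cast Fintype.card_pos) h1
      rw [Real.log_pow] at h2
      push_cast at h2
      linarith
    · have hQR : R₀ * B / σ = Q * B ^ 3 := by rw [hR₀, hσ, hQ]; field_simp
      have hnn : 0 ≤ CS * (R₀ * B / σ) ^ (2 * p)
          * (1 + Real.log (Fintype.card (Option (Fin n × Fin n)))) := by
        have : 0 ≤ Real.log (Fintype.card (Option (Fin n × Fin n)) : ℝ) :=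
          Real.log_natCast_nonneg _
        positivity
      have h := (Nat.ceil_lt_add_one hnn).le
      rw [← hd₀def, hQR] at h
      exact h
  obtain ⟨e⟩ := Function.Embedding.nonempty_of_card_le
    (α := Fin N × Fin d₀) (β := Fin d) (by simpa using hcard)
  refine ⟨fun i => Function.extend e (H i) 0, fun i => ?_, fun i j => ?_⟩
  · rw [nrm_extend hp]
    refine (hHrange _ hH₀range i).trans (le_of_eq ?_)
    rw [hR₀, ← hB]; ring
  have hext : (fun b => Function.extend e (H i) 0 b - Function.extend e (H j) 0 b)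
      = Function.extend e (fun z => H i z - H j z) 0 := by
    funext b
    by_cases hb : ∃ z, e z = b
    · obtain ⟨z, rfl⟩ := hb
      simp [e.injective.extend_apply]
    · simp [Function.extend_apply' _ _ _ hb]
  rw [hext, nrm_extend hp]
  refine ⟨(hHlip i j).trans (le_of_eq rfl), fun hlo hhi => ?_⟩
  rw [← hB] at hhi
  have h1 := hH₀low i j hlo hhi
  have h2 := nrm_triangle hp (H₀ i) (H i) (H₀ j)
  have h3 := nrm_triangle hp (H i) (H j) (H₀ j)
  have h4 := hclose i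
  have h5 := hclose j
  rw [nrm_sub_comm (H i) (H₀ i)] at h4
  simp only [hdst] at hlo h1 ⊢
  linarith

end Vale.Agent.P249
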