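import Mathlib
import Vale.Agent.P249.WindowMap

/-!
Windows of `J` scales with contracted small gaps are glued in boundedly many coordinate groups.
-/

namespace Vale.Agent.P249

open Finset

/-- A geometric sum with ratio at least two is at most twice its largest term. -/
lemma geom_set_sum {B : ℝ} (hB : 2 ≤ B) (S : Finset ℕ) {c X : ℝ} (hc : 0 ≤ c) (hX : 0 ≤ X)
    (h : ∀ w ∈ S, c * B ^ w ≤ X) : ∑ w ∈ S, c * B ^ w ≤ 2 * X := by
  rcases S.eq_empty_or_nonempty with hS | hS
  · subst hS; simpa using hX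
  obtain ⟨m, hm, hmax⟩ := exists_max_image S id hS
  have hgeo : ∀ k : ℕ, ∑ w ∈ range (k + 1), B ^ w ≤ 2 * B ^ k := by
    intro k
    induction k with
    | zero => simp
    | succ k ih =>
      rw [sum_range_succ, pow_succ]
      have : 2 * B ^ k ≤ B ^ k * B := by
        rw [mul_comm]; exact mul_le_mul_of_nonneg_left hB (pow_nonneg (by linarith) k)
      linarith
  rw [← mul_sum]
  have h1 : ∑ w ∈ S, B ^ w ≤ 2 * B ^ m := (sum_le_sum_of_subset_of_nonneg
    (fun w hw => mem_range.2 (Nat.lt_succ_of_le (hmax w hw)))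
    fun w _ _ => pow_nonneg (by linarith) w).trans (hgeo m)
  calc c * ∑ w ∈ S, B ^ w ≤ c * (2 * B ^ m) := mul_le_mul_of_nonneg_left h1 hc
    _ ≤ 2 * X := by linarith [h m hm]

/-- Contracting all pairs of distance at most `T / (8 n²)` loses at most `T / 8`. -/
lemma contract_window {κ : Type*} [Fintype κ] {p : ℝ} (hp : 1 ≤ p) {n : ℕ} (hn : 1 ≤ n)
    (x : Fin n → κ → ℝ) {T : ℝ} (hT : 0 ≤ T) :
    ∃ y : Fin n → κ → ℝ,
      (∀ i j, nrm p (fun c => y i c - y j c) ≤ nrm p (fun c => x i c - x j c)) ∧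
      (∀ i j, nrm p (fun c => x i c - x j c) - T / 8 ≤ nrm p (fun c => y i c - y j c)) ∧
      ∀ i j, nrm p (fun c => x i c - x j c) ≤ T / (8 * (n:ℝ) ^ 2) →
        nrm p (fun c => y i c - y j c) = 0 := by
  classical
  set S := (univ : Finset (Fin n × Fin n)).filter
    (fun e => nrm p (fun c => x e.1 c - x e.2 c) ≤ T / (8 * (n:ℝ) ^ 2)) with hS
  have hn' : (0:ℝ) < n := by exact_mod_cast hn
  refine ⟨contract x S.toList, fun i j => nrm_mono hp fun c => contract_le x _ i j c,
    fun i j => ?_, fun i j hij => ?_⟩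
  · have h := contract_loss hp x (θ := T / (8 * (n:ℝ) ^ 2)) S.toList
      (fun e he => (mem_filter.1 (mem_toList.1 he)).2) i j
    have hlen : (S.toList.length : ℝ) ≤ (n:ℝ) ^ 2 := by
      rw [length_toList]
      have hc : S.card ≤ n * n := (card_le_univ _).trans (le_of_eq (by simp))
      calc (S.card : ℝ) ≤ ((n * n : ℕ) : ℝ) := by exact_mod_cast hc
        _ = _ := by push_cast; ring
    have h2 := mul_le_mul_of_nonneg_right hlen
      (show 0 ≤ T / (8 * (n:ℝ) ^ 2) by positivity)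
    have e : (n:ℝ) ^ 2 * (T / (8 * (n:ℝ) ^ 2)) = T / 8 := by field_simp
    linarith
  · have : ∀ c, contract x S.toList i c - contract x S.toList j c = 0 := fun c => by
      rw [sub_eq_zero]
      exact contract_eq x _ (i, j) (mem_toList.2 (mem_filter.2 ⟨mem_univ _, hij⟩)) c
    simp [this, nrm_zero hp]

/-- Gluing of windows: abstract version. -/
lemma glue_windows {p : ℝ} (hp : 1 ≤ p) {n : ℕ} {κ : Type*} [Fintype κ] (m : ℕ) (hm : 1 ≤ m)
    (W : ℕ) (H : ℕ → Fin n → κ → ℝ) (dst : Fin n → Fin n → ℝ) {B c₀ A K : ℝ} (hB : 2 ≤ B)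
    (hc₀ : 0 < c₀) (hA : 0 ≤ A) (hK : 1 ≤ K) {N : ℝ} (hN : 1 ≤ N)
    (hBm : 256 * K * N * B ^ 2 ≤ B ^ m) (hd0 : ∀ i j, 0 ≤ dst i j)
    (hrange : ∀ w i, nrm p (H w i) ≤ K * (c₀ * B ^ w) * B ^ 2)
    (hlip : ∀ w i j, nrm p (fun b => H w i b - H w j b) ≤ A * dst i j)
    (hzero : ∀ w i j, 8 * N * dst i j ≤ c₀ * B ^ w → nrm p (fun b => H w i b - H w j b) = 0)
    (hlow : ∀ w < W, ∀ i j, c₀ * B ^ w ≤ dst i j → dst i j ≤ c₀ * B ^ w * B →
      dst i j / 8 ≤ nrm p (fun b => H w i b - H w j b) - c₀ * B ^ w / 64) :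
    ∃ F : Fin n → Fin m × κ → ℝ, ∀ i j,
      nrm p (fun z => F i z - F j z) ≤ m * (A + 4) * dst i j ∧
      (∀ w < W, c₀ * B ^ w ≤ dst i j → dst i j ≤ c₀ * B ^ w * B →
        dst i j / 8 ≤ nrm p (fun z => F i z - F j z)) := by
  classical
  have hB0 : 0 < B := by linarith
  have hB1 : 1 ≤ B := by linarith
  set S : Fin m → Finset ℕ := fun r => (range W).filter fun w => w % m = r with hS
  have hgap : ∀ r, ∀ a ∈ S r, ∀ b ∈ S r, a < b → a + m ≤ b := by
    intro r a ha b hb hab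
    have h1 := (mem_filter.1 ha).2
    have h2 := (mem_filter.1 hb).2
    have h3 : (b - a) % m = 0 := Nat.sub_mod_eq_zero_of_mod_eq (h2.trans h1.symm)
    have h4 := Nat.le_of_dvd (by omega) (Nat.dvd_of_mod_eq_zero h3)
    omega
  refine ⟨fun i z => ∑ w ∈ S z.1, H w i z.2, fun i j => ?_⟩
  set δ := dst i j with hδ
  have hδ0 : 0 ≤ δ := hd0 i j
  have e : ∀ r, (fun b => ∑ w ∈ S r, H w i b - ∑ w ∈ S r, H w j b)
      = fun b => ∑ w ∈ S r, (H w i b - H w j b) := fun r => by
    funext b; rw [sum_sub_distrib]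
  have hjump : ∀ w, nrm p (fun b => H w i b - H w j b) ≤ 2 * K * B ^ 2 * c₀ * B ^ w := fun w => by
    refine (nrm_sub_le hp _ _).trans ?_
    linarith [hrange w i, hrange w j]
  constructor
  · have hblock : ∀ r, nrm p (fun b => ∑ w ∈ S r, H w i b - ∑ w ∈ S r, H w j b)
        ≤ (A + 4) * δ := by
      intro r
      rw [e r]
      refine (nrm_sum hp _ (fun w b => H w i b - H w j b)).trans ?_
      set low := (S r).filter fun w => K * B ^ 2 * c₀ * B ^ w ≤ δ with hlowdef
      set mid := (S r).filter fun w => ¬ (K * B ^ 2 * c₀ * B ^ w ≤ δ) ∧ c₀ * B ^ w < 8 * N * δ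
      have hmid : mid.card ≤ 1 := by
        refine card_le_one.2 fun a ha b hb => ?_
        by_contra hab
        have key : ∀ a ∈ mid, ∀ b ∈ mid, a < b → False := by
          intro a ha b hb hlt
          obtain ⟨ha0, ha1, -⟩ := mem_filter.1 ha
          obtain ⟨hb0, -, hb2⟩ := mem_filter.1 hb
          have h1 := pow_le_pow_right₀ hB1 (hgap r a ha0 b hb0 hlt)
          rw [pow_add] at h1
          have h2 : c₀ * B ^ a * (256 * K * N * B ^ 2) ≤ c₀ * B ^ b := by
            calc c₀ * B ^ a * (256 * K * N * B ^ 2) ≤ c₀ * B ^ a * B ^ m :=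
                  mul_le_mul_of_nonneg_left hBm (by positivity)
              _ = c₀ * (B ^ a * B ^ m) := by ring
              _ ≤ _ := mul_le_mul_of_nonneg_left h1 hc₀.le
          have h3 := mul_le_mul_of_nonneg_left (not_le.1 ha1).le (by linarith : 0 ≤ 256 * N)
          have h4 : 0 ≤ N * δ := by positivity
          linarith
        rcases Nat.lt_or_gt_of_ne hab with h | h
        · exact key a ha b hb h
        · exact key b hb a ha h
      calc ∑ w ∈ S r, nrm p (fun b => H w i b - H w j b)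
          ≤ ∑ w ∈ S r, ((if K * B ^ 2 * c₀ * B ^ w ≤ δ then 2 * (K * B ^ 2 * c₀ * B ^ w) else 0)
              + (if ¬ (K * B ^ 2 * c₀ * B ^ w ≤ δ) ∧ c₀ * B ^ w < 8 * N * δ then A * δ else 0)) := by
            refine sum_le_sum fun w _ => ?_
            by_cases h1 : K * B ^ 2 * c₀ * B ^ w ≤ δ
            · simp only [h1, not_true, false_and, if_true, if_false, add_zero]
              linarith [hjump w]
            · by_cases h2 : c₀ * B ^ w < 8 * N * δ
              · simp only [h1, h2, not_false_eq_true, and_self, if_true, if_false, zero_add]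
                exact hlip w i j
              · simp only [h1, h2, not_false_eq_true, and_false, if_false, add_zero]
                exact (hzero w i j (not_lt.1 h2)).le
        _ ≤ 4 * δ + A * δ := by
            rw [sum_add_distrib, ← sum_filter, ← sum_filter, ← mul_sum]
            refine add_le_add ?_ ?_
            · have := geom_set_sum hB low (c := K * B ^ 2 * c₀) (by positivity) hδ0
                fun w hw => (mem_filter.1 hw).2
              linarith
            · rw [sum_const, nsmul_eq_mul]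
              exact mul_le_of_le_one_left (by positivity) (by exact_mod_cast hmid)
        _ = _ := by ring
    refine (Real.rpow_le_rpow_iff (nrm_nonneg _) (by positivity) (by linarith : 0 < p)).1 ?_
    rw [nrm_prod hp]
    refine (sum_rpow_le univ (fun r _ => nrm_nonneg _) hp).trans
      (Real.rpow_le_rpow (sum_nonneg fun r _ => nrm_nonneg _) ?_ (by linarith))
    refine (sum_le_sum fun r _ => hblock r).trans (le_of_eq ?_)
    rw [sum_const, card_univ, Fintype.card_fin, nsmul_eq_mul]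
    ring
  · intro w hw hlo hhi
    obtain ⟨r, hr⟩ : ∃ r : Fin m, w % m = r := ⟨⟨w % m, Nat.mod_lt _ (by omega)⟩, rfl⟩
    have hwS : w ∈ S r := mem_filter.2 ⟨mem_range.2 hw, hr⟩
    have hothers : nrm p (fun b => ∑ v ∈ (S r).erase w, (H v i b - H v j b))
        ≤ c₀ * B ^ w / 64 := by
      refine (nrm_sum hp _ (fun v b => H v i b - H v j b)).trans ?_
      rw [← sum_filter_add_sum_filter_not ((S r).erase w) (fun v => v < w)]
      have hhigh : ∑ v ∈ ((S r).erase w).filter (fun v => ¬ v < w),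
          nrm p (fun b => H v i b - H v j b) = 0 := by
        refine sum_eq_zero fun v hv => hzero v i j ?_
        obtain ⟨hv1, hv2⟩ := mem_filter.1 hv
        obtain ⟨hne, hvS⟩ := mem_erase.1 hv1
        have hge := hgap r w hwS v hvS (by omega)
        have h1 := pow_le_pow_right₀ hB1 hge
        rw [pow_add] at h1
        have h2 : B * (8 * N) ≤ B ^ m := by
          refine le_trans ?_ hBm
          have h3 : B ≤ B ^ 2 := le_self_pow₀ hB1 (by norm_num)
          have h4 : (1:ℝ) * 8 * N * B ≤ K * 256 * N * B ^ 2 := by gcongr; norm_num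
          linarith
        calc 8 * N * δ ≤ 8 * N * (c₀ * B ^ w * B) :=
              mul_le_mul_of_nonneg_left hhi (by linarith)
          _ = c₀ * B ^ w * (B * (8 * N)) := by ring
          _ ≤ c₀ * B ^ w * B ^ m := mul_le_mul_of_nonneg_left h2 (by positivity)
          _ = c₀ * (B ^ w * B ^ m) := by ring
          _ ≤ _ := mul_le_mul_of_nonneg_left h1 hc₀.le
      rw [hhigh, add_zero]
      refine (sum_le_sum fun v _ => hjump v).trans ?_
      refine (geom_set_sum hB _ (c := 2 * K * B ^ 2 * c₀) (X := c₀ * B ^ w / 128) (by positivity)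
        (by positivity) fun v hv => ?_).trans (le_of_eq (by ring))
      obtain ⟨hv1, hv2⟩ := mem_filter.1 hv
      have hge := hgap r v (mem_erase.1 hv1).2 w hwS hv2
      have h1 := pow_le_pow_right₀ hB1 hge
      rw [pow_add] at h1
      have h2 : B ^ v * (256 * K * N * B ^ 2) ≤ B ^ w :=
        (mul_le_mul_of_nonneg_left hBm (by positivity)).trans h1
      have h3 : (256:ℝ) * K * 1 * B ^ 2 * B ^ v ≤ 256 * K * N * B ^ 2 * B ^ v := by gcongr
      have h4 := mul_le_mul_of_nonneg_left (show 256 * K * B ^ 2 * B ^ v ≤ B ^ w by linarith) hc₀.le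
      linarith
    have hsplit : ∀ b, H w i b - H w j b
        = (∑ v ∈ S r, H v i b - ∑ v ∈ S r, H v j b)
          - ∑ v ∈ (S r).erase w, (H v i b - H v j b) := fun b => by
      rw [← sum_sub_distrib, sum_erase_eq_sub hwS]; ring
    have h1 := hlow w hw i j hlo hhi
    have h2 : nrm p (fun b => H w i b - H w j b)
        ≤ nrm p (fun b => ∑ v ∈ S r, H v i b - ∑ v ∈ S r, H v j b)
          + nrm p (fun b => ∑ v ∈ (S r).erase w, (H v i b - H v j b)) := by
      rw [funext hsplit]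
      exact nrm_sub_le hp _ _
    have h3 : nrm p (fun b => ∑ v ∈ S r, H v i b - ∑ v ∈ S r, H v j b)
        ≤ nrm p (fun z : Fin m × κ => ∑ v ∈ S z.1, H v i z.2 - ∑ v ∈ S z.1, H v j z.2) := by
      refine (Real.rpow_le_rpow_iff (nrm_nonneg _) (nrm_nonneg _) (by linarith : 0 < p)).1 ?_
      rw [nrm_prod hp]
      exact single_le_sum (f := fun a => nrm p (fun b =>
        ∑ v ∈ S a, H v i b - ∑ v ∈ S a, H v j b) ^ p)
        (fun a _ => Real.rpow_nonneg (nrm_nonneg _) p) (mem_univ r)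
    show δ / 8 ≤ _
    linarith

/-- Every `n`-point subset of `ℓ_p^m` embeds in `ℓ_p^d` with `d ≤ C n^γ` at a distortion that
depends only on `p` and `γ`. -/
theorem embed_power {p : ℝ} (hp : 1 ≤ p) {γ : ℝ} (hγ : 0 < γ) : ∃ D C : ℝ, 1 < D ∧ 0 < C ∧
    ∀ (ι : Type) [Fintype ι] (n : ℕ), 2 ≤ n → ∀ (x : Fin n → ι → ℝ),
      ∀ d : ℕ, C * (n:ℝ) ^ γ ≤ d → ∃ f : Fin n → Fin d → ℝ, ∀ i j,
        nrm p (fun c => x i c - x j c) ≤ nrm p (fun b => f i b - f j b) ∧
        nrm p (fun b => f i b - f j b) ≤ D * nrm p (fun c => x i c - x j c) := by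
  have hp0 : 0 < p := by linarith
  have hl2 : 0 < Real.log 2 := Real.log_pos one_lt_two
  obtain ⟨a, ha⟩ : ∃ a : ℝ, a = 8 * p * Real.log 2 / γ := ⟨_, rfl⟩
  have ha0 : 0 < a := ha ▸ by positivity
  obtain ⟨A, K, CW, hA, hK, hCW, hwin⟩ := window_map hp ha0.le
  obtain ⟨m, hm⟩ := pow_unbounded_of_one_lt (256 * K * Real.exp (2 * a) * 4) (one_lt_two (α := ℝ))
  have hm1 : 1 ≤ m := by
    by_contra h
    have hm0 : m = 0 := by omega
    rw [hm0, pow_zero] at hm
    have : 1 ≤ Real.exp (2 * a) := Real.one_le_exp (by linarith)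
    nlinarith
  refine ⟨8 * (m * (A + 4)) + 2, m * (CW * (2:ℝ) ^ (6 * p) * (8 / γ) ^ 2 + 1), by
    have : 0 ≤ (m:ℝ) * (A + 4) := by positivity
    linarith, by positivity, ?_⟩
  intro ι _ n hn x d hd
  classical
  have hnR : (2:ℝ) ≤ n := by exact_mod_cast hn
  have hn0 : (0:ℝ) < n := by linarith
  set dst : Fin n → Fin n → ℝ := fun i j => nrm p (fun c => x i c - x j c) with hdst
  have hd0 : ∀ i j, 0 ≤ dst i j := fun i j => nrm_nonneg _
  rcases ((univ : Finset (Fin n × Fin n)).filter fun z => 0 < dst z.1 z.2).eq_empty_or_nonempty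
    with hall | hne
  · refine ⟨fun _ _ => 0, fun i j => ?_⟩
    have : dst i j = 0 := le_antisymm (not_lt.1 fun h => absurd hall
      (Nonempty.ne_empty ⟨(i, j), mem_filter.2 ⟨mem_univ _, h⟩⟩)) (hd0 i j)
    simp only [hdst] at this
    simp [nrm_zero hp, this]
  obtain ⟨z₀, hz₀, hzmin⟩ := exists_min_image _ (fun z => dst z.1 z.2) hne
  obtain ⟨c₀, hc₀def⟩ : ∃ c₀ : ℝ, c₀ = dst z₀.1 z₀.2 := ⟨_, rfl⟩
  have hc₀ : 0 < c₀ := hc₀def ▸ (mem_filter.1 hz₀).2
  -- number of scales per window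
  obtain ⟨J, hJdef⟩ : ∃ J : ℕ, J = ⌊Real.log n / a⌋₊ + 1 := ⟨_, rfl⟩
  have hJ1 : 1 ≤ J := by omega
  have hlogn : 0 ≤ Real.log n := Real.log_natCast_nonneg n
  have hJ : Real.log n ≤ a * J := by
    have h := Nat.lt_floor_add_one (Real.log n / a)
    rw [div_lt_iff₀ ha0] at h
    rw [hJdef]; push_cast; linarith
  obtain ⟨B, hB⟩ : ∃ B : ℝ, B = (2:ℝ) ^ J := ⟨_, rfl⟩
  have hB2 : 2 ≤ B := hB ▸ le_self_pow₀ one_le_two (by omega)
  have hB0 : 0 < B := by linarith
  have hBle : B ≤ 2 * (n:ℝ) ^ (γ / (8 * p)) := by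
    have h := Nat.floor_le (div_nonneg hlogn ha0.le)
    have h1 : (⌊Real.log n / a⌋₊ : ℝ) * Real.log 2 ≤ Real.log n / a * Real.log 2 :=
      mul_le_mul_of_nonneg_right h hl2.le
    have h2 : Real.log n / a * Real.log 2 = Real.log n * (γ / (8 * p)) := by
      rw [ha]; field_simp
    rw [hB, hJdef, pow_succ, mul_comm]
    refine mul_le_mul_of_nonneg_left ?_ zero_le_two
    rw [← Real.rpow_natCast, Real.rpow_def_of_pos two_pos, Real.rpow_def_of_pos hn0]
    exact Real.exp_le_exp.2 (by linarith)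
  obtain ⟨d₀, hd₀def⟩ : ∃ d₀ : ℕ,
      d₀ = ⌈CW * B ^ (6 * p) * Real.log n * Real.log n⌉₊ := ⟨_, rfl⟩
  -- the window maps
  have hwindows : ∀ w : ℕ, ∃ H : Fin n → Fin d₀ → ℝ,
      (∀ i, nrm p (H i) ≤ K * (c₀ * B ^ w) * B ^ 2) ∧
      (∀ i j, nrm p (fun b => H i b - H j b) ≤ A * dst i j) ∧
      (∀ i j, 8 * (n:ℝ) ^ 2 * dst i j ≤ c₀ * B ^ w → nrm p (fun b => H i b - H j b) = 0) ∧
      (∀ i j, c₀ * B ^ w ≤ dst i j → dst i j ≤ c₀ * B ^ w * B →
        dst i j / 8 ≤ nrm p (fun b => H i b - H j b) - c₀ * B ^ w / 64) := by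
    intro w
    have hT : 0 < c₀ * B ^ w := by positivity
    obtain ⟨y, hy1, hy2, hy3⟩ := contract_window hp (show 1 ≤ n by omega) x hT.le
    obtain ⟨H, hH1, hH2⟩ := hwin ι n hn J hJ1 hJ y (c₀ * B ^ w) hT d₀
      (by rw [← hB, hd₀def]; exact Nat.le_ceil _)
    refine ⟨H, fun i => (hH1 i).trans_eq (by rw [← hB]),
      fun i j => (hH2 i j).1.trans (mul_le_mul_of_nonneg_left (hy1 i j) (by linarith)),
      fun i j h => ?_, fun i j hlo hhi => ?_⟩
    · have h0 := hy3 i j (by rw [le_div_iff₀ (by positivity), mul_comm]; exact h)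
      exact le_antisymm ((hH2 i j).1.trans (by rw [h0, mul_zero])) (nrm_nonneg _)
    · have a1 := hy2 i j
      have a2 := hy1 i j
      simp only [hdst] at hlo hhi ⊢
      have h3 := (hH2 i j).2 (by linarith) (by rw [← hB]; linarith)
      linarith
  choose H hHr hHl hHz hHlow using hwindows
  obtain ⟨W, hW⟩ := pow_unbounded_of_one_lt ((∑ i, ∑ j, dst i j) / c₀)
    (show (1:ℝ) < B by linarith)
  have hBm : 256 * K * (n:ℝ) ^ 2 * B ^ 2 ≤ B ^ m := by
    have hJR : (1:ℝ) ≤ J := by exact_mod_cast hJ1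
    have e1 : (n:ℝ) ^ 2 ≤ Real.exp (2 * a) ^ J := by
      rw [← Real.exp_nat_mul, ← Real.rpow_natCast (n:ℝ) 2, Real.rpow_def_of_pos hn0]
      exact Real.exp_le_exp.2 (by push_cast; linarith)
    have e2 : B ^ 2 = (4:ℝ) ^ J := by
      rw [hB, ← pow_mul, mul_comm, pow_mul]; norm_num
    have e3 : 256 * K ≤ (256 * K) ^ J := le_self_pow₀ (by linarith) (by omega)
    calc 256 * K * (n:ℝ) ^ 2 * B ^ 2 ≤ (256 * K) ^ J * Real.exp (2 * a) ^ J * (4:ℝ) ^ J := by
          rw [e2]; gcongr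
      _ = (256 * K * Real.exp (2 * a) * 4) ^ J := by simp only [mul_pow]
      _ ≤ ((2:ℝ) ^ m) ^ J := pow_le_pow_left₀ (by positivity) hm.le J
      _ = B ^ m := by rw [hB, ← pow_mul, ← pow_mul, mul_comm]
  obtain ⟨F, hF⟩ := glue_windows hp m hm1 W H dst hB2 hc₀ (by linarith : 0 ≤ A) hK
    (one_le_pow₀ (by linarith : (1:ℝ) ≤ n)) hBm hd0 hHr hHl hHz (fun w _ => hHlow w)
  have hcard : Fintype.card (Fin m × Fin d₀) ≤ d := by
    rw [Fintype.card_prod, Fintype.card_fin, Fintype.card_fin]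
    refine Nat.cast_le (α := ℝ).1 ?_
    push_cast
    refine le_trans ?_ hd
    rw [mul_assoc]
    refine mul_le_mul_of_nonneg_left ?_ (Nat.cast_nonneg m)
    have hlog := Real.log_le_rpow_div hn0.le (show 0 < γ / 8 by positivity)
    have hBp : B ^ (6 * p) ≤ (2:ℝ) ^ (6 * p) * (n:ℝ) ^ (3 * γ / 4) := by
      refine (Real.rpow_le_rpow hB0.le hBle (by positivity)).trans (le_of_eq ?_)
      rw [Real.mul_rpow zero_le_two (Real.rpow_nonneg hn0.le _), ← Real.rpow_mul hn0.le]
      congr 2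
      field_simp
      ring
    have e : (n:ℝ) ^ γ = (n:ℝ) ^ (3 * γ / 4) * (n:ℝ) ^ (γ / 8) * (n:ℝ) ^ (γ / 8) := by
      rw [← Real.rpow_add hn0, ← Real.rpow_add hn0]; congr 1; ring
    have hone : 1 ≤ (n:ℝ) ^ γ := Real.one_le_rpow (by linarith) hγ.le
    have hmain : CW * B ^ (6 * p) * Real.log n * Real.log n
        ≤ CW * (2:ℝ) ^ (6 * p) * (8 / γ) ^ 2 * (n:ℝ) ^ γ := by
      calc CW * B ^ (6 * p) * Real.log n * Real.log n
          ≤ CW * ((2:ℝ) ^ (6 * p) * (n:ℝ) ^ (3 * γ / 4))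
              * ((n:ℝ) ^ (γ / 8) / (γ / 8)) * ((n:ℝ) ^ (γ / 8) / (γ / 8)) := by
            gcongr
        _ = _ := by rw [e]; field_simp
    have h := (Nat.ceil_lt_add_one
      (show 0 ≤ CW * B ^ (6 * p) * Real.log n * Real.log n by positivity)).le
    rw [← hd₀def] at h
    linarith
  obtain ⟨e⟩ := Function.Embedding.nonempty_of_card_le
    (α := Fin m × Fin d₀) (β := Fin d) (by simpa using hcard)
  refine ⟨fun i b => 8 * Function.extend e (F i) 0 b, fun i j => ?_⟩
  have hext : (fun b => 8 * Function.extend e (F i) 0 b - 8 * Function.extend e (F j) 0 b)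
      = fun b => 8 * Function.extend e (fun z => F i z - F j z) 0 b := by
    funext b
    by_cases hb : ∃ z, e z = b
    · obtain ⟨z, rfl⟩ := hb
      simp [e.injective.extend_apply, mul_sub]
    · simp [Function.extend_apply' _ _ _ hb]
  rw [hext, nrm_smul hp (by norm_num), nrm_extend hp]
  have hub := (hF i j).1
  have hN0 : 0 ≤ nrm p (fun z => F i z - F j z) := nrm_nonneg _
  refine ⟨?_, ?_⟩
  · show dst i j ≤ _
    rcases (hd0 i j).eq_or_lt' with h0 | hpos
    · rw [h0]; positivity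
    have hge : c₀ ≤ dst i j := hc₀def ▸ hzmin (i, j) (mem_filter.2 ⟨mem_univ _, hpos⟩)
    have hW' : dst i j < c₀ * B ^ W := by
      rw [div_lt_iff₀ hc₀] at hW
      have h1 : dst i j ≤ ∑ j', dst i j' := single_le_sum (fun j' _ => hd0 i j') (mem_univ j)
      have h2 : ∑ j', dst i j' ≤ ∑ i', ∑ j', dst i' j' :=
        single_le_sum (f := fun i' => ∑ j', dst i' j')
          (fun i' _ => sum_nonneg fun j' _ => hd0 i' j') (mem_univ i)
      linarith
    obtain ⟨w, hwlo, hwhi⟩ : ∃ w, c₀ * B ^ w ≤ dst i j ∧ dst i j < c₀ * B ^ (w + 1) := by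
      have hex : ∃ k, dst i j < c₀ * B ^ (k + 1) := by
        refine ⟨W, hW'.trans_le ?_⟩
        gcongr
        · linarith
        · omega
      refine ⟨Nat.find hex, ?_, Nat.find_spec hex⟩
      rcases Nat.eq_zero_or_pos (Nat.find hex) with h | h
      · rw [h, pow_zero, mul_one]; exact hge
      · have := Nat.find_min hex (Nat.sub_lt h one_pos)
        push Not at this
        rwa [Nat.sub_one_add_one h.ne'] at this
    have hwW : w < W := by
      by_contra h
      have := pow_le_pow_right₀ (show (1:ℝ) ≤ B by linarith) (not_lt.1 h)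
      have := mul_le_mul_of_nonneg_left this hc₀.le
      linarith
    have := (hF i j).2 w hwW hwlo (by rw [mul_assoc, ← pow_succ]; exact hwhi.le)
    linarith
  · have : 0 ≤ dst i j := hd0 i j
    simp only [hdst] at hub this
    linarith

end Vale.Agent.P249
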